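import Vale.Agent.P313.CT.E1a

/-!
Compilation of low level programs to goto code.
-/

namespace Vale.Agent.P313.CT

theorem StepsL.trans {code : List LI} {E : Env} {V : Orc} {n m : ℕ} {a b c : ℕ × LS}
    (h1 : StepsL code E V n a b) (h2 : StepsL code E V m b c) : StepsL code E V (n + m) a c := by
  induction h1 with
  | refl => simpa using h2
  | head h _ ih =>
    rw [Nat.add_right_comm]
    exact StepsL.head h (ih h2)

theorem StepsL.single {code : List LI} {E : Env} {V : Orc} {a b : ℕ × LS}
    (h : stepL code E V a = some b) : StepsL code E V 1 a b :=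
  StepsL.head h (StepsL.refl b)

/-- Length of the compiled code. -/
def LP.len : LP → ℕ
  | .skip => 0
  | .inc _ => 1
  | .dec _ => 1
  | .seq p q => p.len + q.len
  | .ifz _ p q => 3 + q.len + p.len
  | .loop _ p => 2 + p.len
  | .inL => 1
  | .inR => 1
  | .ifin _ p q => 2 + p.len + q.len
  | .ora _ _ => 1
  | .wr _ _ => 1

/-- Compiled code, to be placed at address `a`. -/
def LP.code : LP → ℕ → List LI
  | .skip, _ => []
  | .inc r, _ => [LI.inc r]
  | .dec r, a => [LI.jzdec r (a + 1)]
  | .seq p q, a => p.code a ++ q.code (a + p.len)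
  | .ifz r p q, a =>
    LI.jzdec r (a + 3 + q.len) :: LI.inc r ::
      (q.code (a + 2) ++ LI.jmp (a + 3 + q.len + p.len) :: p.code (a + 3 + q.len))
  | .loop r p, a =>
    LI.jzdec r (a + 2 + p.len) :: (p.code (a + 1) ++ [LI.jmp a])
  | .inL, _ => [LI.inL]
  | .inR, _ => [LI.inR]
  | .ifin f p q, a =>
    LI.jin f (a + 2 + p.len) ::
      (p.code (a + 1) ++ LI.jmp (a + 2 + p.len + q.len) :: q.code (a + 2 + p.len))
  | .ora o b, _ => [LI.ora o b]
  | .wr b d, _ => [LI.wr b d]

theorem LP.length_code (p : LP) : ∀ a, (p.code a).length = p.len := by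
  induction p with
  | skip => intro a; rfl
  | inc r => intro a; rfl
  | dec r => intro a; rfl
  | seq p q ihp ihq => intro a; simp only [code, List.length_append, ihp, ihq, len]
  | ifz r p q ihp ihq =>
    intro a; simp only [code, List.length_cons, List.length_append, ihq, ihp, len]; omega
  | loop r p ihp =>
    intro a
    simp only [code, List.length_cons, List.length_append, ihp, List.length_nil, len]
    omega
  | inL => intro a; rfl
  | inR => intro a; rfl
  | ifin f p q ihp ihq =>
    intro a; simp only [code, List.length_cons, List.length_append, ihp, ihq, len]; omega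
  | ora o b => intro a; rfl
  | wr b d => intro a; rfl

/-- The list `l` sits in `code` at address `a`. -/
def CodeAt (code : List LI) (a : ℕ) (l : List LI) : Prop :=
  ∃ pre post, code = pre ++ (l ++ post) ∧ pre.length = a

theorem CodeAt.left {code : List LI} {a : ℕ} {l1 l2 : List LI}
    (h : CodeAt code a (l1 ++ l2)) : CodeAt code a l1 := by
  obtain ⟨pre, post, h, ha⟩ := h
  exact ⟨pre, l2 ++ post, by simp [h], ha⟩

theorem CodeAt.right {code : List LI} {a b : ℕ} {l1 l2 : List LI}
    (h : CodeAt code a (l1 ++ l2)) (hb : b = a + l1.length) : CodeAt code b l2 := by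
  obtain ⟨pre, post, h, ha⟩ := h
  exact ⟨pre ++ l1, post, by simp [h], by simp [ha, hb]⟩

theorem CodeAt.head {code : List LI} {a : ℕ} {i : LI} {l : List LI}
    (h : CodeAt code a (i :: l)) : code[a]? = some i := by
  obtain ⟨pre, post, h, ha⟩ := h
  subst ha
  simp [h]

theorem CodeAt.tail {code : List LI} {a b : ℕ} {i : LI} {l : List LI}
    (h : CodeAt code a (i :: l)) (hb : b = a + 1) : CodeAt code b l := by
  obtain ⟨pre, post, h, ha⟩ := h
  exact ⟨pre ++ [i], post, by simp [h], by simp [ha, hb]⟩

theorem run_codeL {E : Env} {V : Orc} {p : LP} {s s' : LS} {c : ℕ} (h : RunL E V p s s' c) :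
    ∀ (code : List LI) (a : ℕ), CodeAt code a (p.code a) →
      ∃ n, n ≤ 4 * c ∧ StepsL code E V n (a, s) (a + p.len, s') := by
  induction h with
  | skip s => intro code a _; exact ⟨0, by omega, by simpa [LP.len] using StepsL.refl _⟩
  | inc r s =>
    intro code a h
    refine ⟨1, by omega, StepsL.single ?_⟩
    simp only [stepL, h.head, LP.len]
  | dec r s =>
    intro code a h
    refine ⟨1, by omega, StepsL.single ?_⟩
    by_cases h0 : s.reg r = 0
    · simp only [stepL, h.head, h0, if_true, LP.len, Option.some.injEq, Prod.mk.injEq, true_and,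
        Nat.zero_sub]
      unfold LS.set
      rw [← h0, Function.update_eq_self]
    · simp only [stepL, h.head, h0, if_false, LP.len]
  | @seq p q s s1 s2 c1 c2 _ _ ih1 ih2 =>
    intro code a h
    obtain ⟨n1, hn1, h1⟩ := ih1 code a h.left
    obtain ⟨n2, hn2, h2⟩ := ih2 code (a + p.len) (h.right (by rw [LP.length_code]))
    refine ⟨n1 + n2, by omega, ?_⟩
    have := h1.trans h2
    simpa [LP.len, Nat.add_assoc] using this
  | @ifz_z r p q s s1 c h0 _ ih =>
    intro code a h
    have hh := h.head
    have h2 := (h.tail rfl).tail rfl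
    have h3 := (h2.right (b := a + 2 + q.len) (by rw [LP.length_code])).tail rfl
    obtain ⟨n, hn, h4⟩ := ih code (a + 3 + q.len) (by
      have e : a + 2 + q.len + 1 = a + 3 + q.len := by omega
      rw [e] at h3; exact h3)
    refine ⟨1 + n, by omega, ?_⟩
    refine (StepsL.single (b := (a + 3 + q.len, s)) (by simp only [stepL, hh, h0, if_true])).trans ?_
    have e : a + (LP.ifz r p q).len = a + 3 + q.len + p.len := by simp only [LP.len]; omega
    rw [e]; exact h4
  | @ifz_nz r p q s s1 c h0 _ ih =>
    intro code a h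
    have hh := h.head
    have h1 := (h.tail rfl).head
    have h2 := (h.tail rfl).tail rfl
    have h3 := (h2.right (b := a + 2 + q.len) (by rw [LP.length_code])).head
    obtain ⟨n, hn, h4⟩ := ih code (a + 2) h2.left
    refine ⟨1 + 1 + n + 1, by omega, ?_⟩
    refine (((StepsL.single (b := (a + 1, s.set r (s.reg r - 1)))
      (by simp only [stepL, hh, h0, if_false])).trans
      (StepsL.single (b := (a + 1 + 1, s)) ?_)).trans h4).trans (StepsL.single ?_)
    · simp only [stepL, h1, LS.set, Function.update_self, Function.update_idem,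
        Option.some.injEq, Prod.mk.injEq, true_and]
      have : s.reg r - 1 + 1 = s.reg r := by omega
      rw [this, Function.update_eq_self]
    · simp only [stepL, h3, LP.len, Option.some.injEq, Prod.mk.injEq, and_true]; omega
  | @loop_z r p s h0 =>
    intro code a h
    refine ⟨1, by omega, StepsL.single ?_⟩
    simp only [stepL, h.head, h0, if_true, LP.len, Option.some.injEq, Prod.mk.injEq, and_true]
    omega
  | @loop_nz r p s s1 s2 c1 c2 h0 _ _ ih1 ih2 =>
    intro code a h
    have hh := h.head
    have h1 := h.tail rfl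
    have h2 := (h1.right (b := a + 1 + p.len) (by rw [LP.length_code])).head
    obtain ⟨n1, hn1, h3⟩ := ih1 code (a + 1) h1.left
    obtain ⟨n2, hn2, h4⟩ := ih2 code a h
    refine ⟨1 + n1 + 1 + n2, by omega, ?_⟩
    refine (((StepsL.single (b := (a + 1, s.set r (s.reg r - 1)))
      (by simp only [stepL, hh, h0, if_false])).trans
      h3).trans (StepsL.single ?_)).trans h4
    simp only [stepL, h2]
  | inL s =>
    intro code a h
    exact ⟨1, by omega, StepsL.single (by simp [stepL, h.head, LP.len])⟩
  | inR s =>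
    intro code a h
    exact ⟨1, by omega, StepsL.single (by simp [stepL, h.head, LP.len])⟩
  | @ifin_t f p q s s1 c h0 _ ih =>
    intro code a h
    have hh := h.head
    have h1 := h.tail rfl
    have h2 := (h1.right (b := a + 1 + p.len) (by rw [LP.length_code])).head
    obtain ⟨n, hn, h3⟩ := ih code (a + 1) h1.left
    refine ⟨1 + n + 1, by omega, ?_⟩
    refine ((StepsL.single (b := (a + 1, s)) (by simp only [stepL, hh, h0, if_true])).trans
      h3).trans (StepsL.single ?_)
    simp only [stepL, h2, LP.len, Option.some.injEq, Prod.mk.injEq, and_true]; omega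
  | @ifin_f f p q s s1 c h0 _ ih =>
    intro code a h
    have hh := h.head
    have h1 := h.tail rfl
    have h2 := (h1.right (b := a + 1 + p.len) (by rw [LP.length_code])).tail rfl
    obtain ⟨n, hn, h3⟩ := ih code (a + 2 + p.len) (by
      have e : a + 1 + p.len + 1 = a + 2 + p.len := by omega
      rw [e] at h2; exact h2)
    refine ⟨1 + n, by omega, ?_⟩
    refine (StepsL.single (b := (a + 2 + p.len, s)) (by simp [stepL, hh, h0])).trans ?_
    have e : a + (LP.ifin f p q).len = a + 2 + p.len + q.len := by simp only [LP.len]; omega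
    rw [e]; exact h3
  | ora o b s =>
    intro code a h
    refine ⟨1, by omega, StepsL.single ?_⟩
    simp [stepL, h.head, LP.len]
  | wr b d s =>
    intro code a h
    refine ⟨1, by omega, StepsL.single ?_⟩
    simp [stepL, h.head, LP.len]
  | mono _ hc ih =>
    intro code a h
    obtain ⟨n, hn, h1⟩ := ih code a h
    exact ⟨n, by omega, h1⟩

/-- A bound for the registers of a list of instructions. -/
theorem exists_Rb : ∀ code : List LI, ∃ m, 3 ≤ m ∧ ∀ i ∈ code, i.Rb m := by
  have hmono : ∀ (i : LI) {m m' : ℕ}, m ≤ m' → i.Rb m → i.Rb m' := by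
    intro i m m' h hi
    cases i <;> simp only [LI.Rb] at hi ⊢ <;> omega
  have hone : ∀ i : LI, ∃ m, i.Rb m := by
    intro i
    cases i with
    | inc r => exact ⟨r + 1, by simp only [LI.Rb]; omega⟩
    | jzdec r l => exact ⟨r + 1, by simp only [LI.Rb]; omega⟩
    | inL => exact ⟨0, trivial⟩
    | inR => exact ⟨0, trivial⟩
    | jin f l => exact ⟨0, trivial⟩
    | jmp l => exact ⟨0, trivial⟩
    | ora o a => exact ⟨o + a + 1, by simp only [LI.Rb]; omega⟩
    | wr a d => exact ⟨a + d + 1, by simp only [LI.Rb]; omega⟩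
  intro code
  induction code with
  | nil => exact ⟨3, le_rfl, by simp⟩
  | cons i code ih =>
    obtain ⟨m, hm, h⟩ := ih
    obtain ⟨m', h'⟩ := hone i
    refine ⟨max m m', by omega, fun j hj => ?_⟩
    rcases List.mem_cons.1 hj with rfl | hj
    · exact hmono _ (le_max_right _ _) h'
    · exact hmono _ (le_max_left _ _) (h j hj)

theorem spec_E1 : Spec_E1 := by
  intro p hp
  obtain ⟨d, h⟩ := real_all p hp
  obtain ⟨P, hP⟩ := h (max 3 p.rb) (le_max_right _ _)
  obtain ⟨m, hm, hcode⟩ := exists_Rb (P.code 0)
  refine ⟨P.code 0, m, 2 * d + 2, hm, hcode, fun E V l q t hl hq => ?_⟩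
  set X := E.word.length + E.B + 2 with hX
  have hX2 : 2 ≤ X := by omega
  have r1 := hP E V ⟨start l q, 0, t⟩ E.B (fun r => by
    simp only [start]; split_ifs <;> omega) le_rfl (fun r hr => by
    simp only [start]; rw [if_neg (by omega), if_neg (by omega)]) rfl
  obtain ⟨n, hn, h1⟩ := run_codeL r1 (P.code 0) 0 ⟨[], [], by simp, rfl⟩
  refine ⟨n, (res E V p ⟨start l q, 0, t⟩).reg, ?_, rfl, ?_⟩
  · refine hn.trans ?_
    calc 4 * X ^ d = 2 ^ 2 * X ^ d := by norm_num
      _ ≤ X ^ 2 * X ^ d := Nat.mul_le_mul_right _ (Nat.pow_le_pow_left hX2 2)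
      _ = X ^ (d + 2) := by ring
      _ ≤ X ^ (2 * d + 2) := Nat.pow_le_pow_right (by omega) (by omega)
  · rw [Nat.zero_add, ← LP.length_code P 0] at h1
    exact h1

end Vale.Agent.P313.CT
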