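import Vale.Agent.P313.CT.Low

/-!
Structured programs are realized by low level programs.
-/

namespace Vale.Agent.P313.CT

/-- Embedding of oracle programs; the private work tape is never used. -/
def emb : TS.Prog → LP
  | .skip => .skip
  | .inc r => .inc r
  | .dec r => .dec r
  | .seq p q => .seq (emb p) (emb q)
  | .ifz r p q => .ifz r (emb p) (emb q)
  | .loop r p => .loop r (emb p)
  | .inL => .inL
  | .inR => .inR
  | .ifin f p q => .ifin f (emb p) (emb q)
  | .ora o a => .ora o a
  | .tL => .skip
  | .tR => .skip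
  | .tW _ => .skip
  | .ift _ _ => .skip

/-- Low level state from a state of oracle programs. -/
def toLS (s : TS.PS) (t : Tape) : LS := ⟨s.reg, s.pos, t⟩

theorem run_emb {E : Env} {V : Orc} {t : Tape} {p : TS.Prog} {s s' : TS.PS} {c : ℕ}
    (h : TS.Run (inp E V t) p s s' c) : RunL E V (emb p) (toLS s t) (toLS s' t) c := by
  induction h with
  | skip s => exact RunL.skip _
  | inc r s => exact RunL.inc r (toLS s t)
  | dec r s => exact RunL.dec r (toLS s t)
  | seq _ _ ih1 ih2 => exact RunL.seq ih1 ih2
  | ifz_z h _ ih => exact RunL.ifz_z h ih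
  | ifz_nz h _ ih => exact RunL.ifz_nz h ih
  | loop_z h => exact RunL.loop_z h
  | loop_nz h _ _ ih1 ih2 => exact RunL.loop_nz h ih1 ih2
  | inL s => exact RunL.inL (toLS s t)
  | inR s => exact RunL.inR (toLS s t)
  | ifin_t h _ ih => exact RunL.ifin_t h ih
  | ifin_f h _ ih => exact RunL.ifin_f h ih
  | ora o a s _ => exact RunL.ora o a (toLS s t)
  | tL s _ h => exact absurd h (by simp [inp])
  | tR s h => exact absurd h (by simp [inp])
  | tW b s h => exact absurd h (by simp [inp])
  | ift_t h _ _ _ => exact absurd h (by simp [inp])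
  | ift_f h _ _ _ => exact absurd h (by simp [inp])
  | mono _ hc ih => exact RunL.mono ih hc

/-- A counted loop. -/
theorem RunL.loop_iter {E : Env} {V : Orc} {r : ℕ} {p : LP} {c : ℕ} :
    ∀ (n : ℕ) (S : ℕ → LS), (∀ i, i ≤ n → (S i).reg r = n - i) →
      (∀ i, i < n → RunL E V p ((S i).set r (n - i - 1)) (S (i + 1)) c) →
      RunL E V (LP.loop r p) (S 0) (S n) (n * (c + 1) + 1) := by
  intro n
  induction n with
  | zero =>
    intro S h0 _
    refine (RunL.loop_z (by simpa using h0 0 le_rfl)).mono (by omega)
  | succ n ih =>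
    intro S h0 h1
    have e := h0 0 (by omega)
    have h2 := ih (fun i => S (i + 1)) (fun i hi => by
      have := h0 (i + 1) (by omega)
      show (S (i + 1)).reg r = n - i
      omega) (fun i hi => by
      have := h1 (i + 1) (by omega)
      have e2 : n + 1 - (i + 1) - 1 = n - i - 1 := by omega
      rw [e2] at this
      exact this)
    have h3 := h1 0 (by omega)
    have e3 : n + 1 - 0 - 1 = (S 0).reg r - 1 := by omega
    rw [e3] at h3
    refine (RunL.loop_nz (by omega) h3 h2).mono ?_
    ring_nf
    omega

/-- A bound for the registers of a program. -/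
def CP.rb : CP → ℕ
  | .skip => 0
  | .set i _ _ args => max (i + 1) (Finset.univ.sup fun j => args j + 1)
  | .wr a d => max (a + 1) (d + 1)
  | .seq p q => max p.rb q.rb
  | .ite r p q => max (r + 1) (max p.rb q.rb)
  | .loop r p => max (r + 1) p.rb

variable {E : Env} {V : Orc}

theorem iter_reg_le {f : St → St} {R : ℕ} (h : ∀ s : St, (∀ r, s.reg r ≤ R) →
    ∀ r, (f s).reg r ≤ R) : ∀ (n : ℕ) (s : St), (∀ r, s.reg r ≤ R) → ∀ r, (f^[n] s).reg r ≤ R := by
  intro n
  induction n with
  | zero => intro s hs; exact hs
  | succ n ih => intro s hs; rw [Function.iterate_succ_apply]; exact ih _ (h s hs)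

/-- Registers stay bounded. -/
theorem den_le {R : ℕ} (hB : E.B ≤ R) (p : CP) : ∀ s : St, (∀ r, s.reg r ≤ R) →
    ∀ r, (den E V p s).reg r ≤ R := by
  induction p with
  | skip => intro s hs; exact hs
  | set i k f args =>
    intro s hs r
    simp only [den, St.set_reg]
    by_cases e : r = i
    · subst e; rw [Function.update_self]; exact (min_le_right _ _).trans hB
    · rw [Function.update_of_ne e]; exact hs r
  | wr a d =>
    intro s hs r
    simp only [den]
    split_ifs
    · exact hs r
    · exact hs r
  | seq p q ihp ihq => intro s hs; exact ihq _ (ihp s hs)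
  | ite r p q ihp ihq =>
    intro s hs
    simp only [den]
    split_ifs
    · exact ihp s hs
    · exact ihq s hs
  | loop r p ih =>
    intro s hs
    exact iter_reg_le ih _ s hs

theorem iter_reg_frame {f : St → St} {r : ℕ} (h : ∀ s : St, (f s).reg r = s.reg r) :
    ∀ (n : ℕ) (s : St), (f^[n] s).reg r = s.reg r := by
  intro n
  induction n with
  | zero => intro s; rfl
  | succ n ih => intro s; rw [Function.iterate_succ_apply, ih, h]

/-- Registers which do not occur do not change. -/
theorem den_frame (p : CP) {r : ℕ} (hr : p.rb ≤ r) : ∀ s : St, (den E V p s).reg r = s.reg r := by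
  induction p with
  | skip => intro s; rfl
  | set i k f args =>
    intro s
    simp only [CP.rb] at hr
    simp only [den, St.set_reg]
    rw [Function.update_of_ne (by have := le_max_left (i + 1) (Finset.univ.sup fun j => args j + 1); omega)]
  | wr a d => intro s; simp only [den]; split_ifs <;> rfl
  | seq p q ihp ihq =>
    intro s
    simp only [CP.rb] at hr
    show (den E V q (den E V p s)).reg r = _
    rw [ihq (by omega), ihp (by omega)]
  | ite i p q ihp ihq =>
    intro s
    simp only [CP.rb] at hr
    simp only [den]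
    split_ifs
    · exact ihp (by omega) s
    · exact ihq (by omega) s
  | loop i p ih =>
    intro s
    simp only [CP.rb] at hr
    exact iter_reg_frame (ih (by omega)) _ s

theorem iter_upd {f : St → St} {b v : ℕ} (h : ∀ s : St, f (s.set b v) = (f s).set b v) :
    ∀ (n : ℕ) (s : St), f^[n] (s.set b v) = (f^[n] s).set b v := by
  intro n
  induction n with
  | zero => intro s; rfl
  | succ n ih => intro s; rw [Function.iterate_succ_apply, Function.iterate_succ_apply, h, ih]

/-- Registers which do not occur do not matter. -/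
theorem den_upd (p : CP) {b : ℕ} (hb : p.rb ≤ b) (v : ℕ) : ∀ s : St,
    den E V p (s.set b v) = (den E V p s).set b v := by
  induction p with
  | skip => intro s; rfl
  | set i k f args =>
    intro s
    simp only [CP.rb] at hb
    have hi : i ≠ b := by
      have := le_max_left (i + 1) (Finset.univ.sup fun j => args j + 1); omega
    have ha : ∀ j, args j ≠ b := by
      intro j
      have h1 : args j + 1 ≤ Finset.univ.sup fun j => args j + 1 :=
        Finset.le_sup (f := fun j => args j + 1) (Finset.mem_univ j)
      have := le_max_right (i + 1) (Finset.univ.sup fun j => args j + 1)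
      omega
    have e1 : (fun j => (s.set b v).reg (args j)) = fun j => s.reg (args j) := by
      funext j
      simp only [St.set_reg, Function.update_of_ne (ha j)]
    simp only [den]
    rw [e1]
    simp only [St.set, St.mk.injEq, and_true]
    exact Function.update_comm hi.symm _ _ _
  | wr a d =>
    intro s
    simp only [CP.rb] at hb
    have h1 : (s.set b v).reg a = s.reg a := by
      simp only [St.set_reg]; rw [Function.update_of_ne (by omega)]
    have h2 : (s.set b v).reg d = s.reg d := by
      simp only [St.set_reg]; rw [Function.update_of_ne (by omega)]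
    simp only [den]
    rw [h1, h2]
    split_ifs <;> rfl
  | seq p q ihp ihq =>
    intro s
    simp only [CP.rb] at hb
    show den E V q (den E V p (s.set b v)) = _
    rw [ihp (by omega), ihq (by omega)]
    rfl
  | ite i p q ihp ihq =>
    intro s
    simp only [CP.rb] at hb
    have h1 : (s.set b v).reg i = s.reg i := by
      simp only [St.set_reg]; rw [Function.update_of_ne (by omega)]
    simp only [den]
    rw [h1]
    split_ifs
    · exact ihp (by omega) s
    · exact ihq (by omega) s
  | loop i p ih =>
    intro s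
    simp only [CP.rb] at hb
    have h1 : (s.set b v).reg i = s.reg i := by
      simp only [St.set_reg]; rw [Function.update_of_ne (by omega)]
    simp only [den]
    rw [h1]
    exact iter_upd (ih (by omega)) _ _

/-- The result of a program as a low level state. -/
def res (E : Env) (V : Orc) (p : CP) (u : LS) : LS :=
  ⟨(den E V p ⟨u.reg, u.tp⟩).reg, 0, (den E V p ⟨u.reg, u.tp⟩).tp⟩

/-- `P` realizes `p` with scratch registers from `b` on, with cost exponent `d`. -/
def Real (p : CP) (d b : ℕ) (P : LP) : Prop :=
  ∀ (E : Env) (V : Orc) (u : LS) (R : ℕ), (∀ r, u.reg r ≤ R) → E.B ≤ R →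
    (∀ r, b ≤ r → u.reg r = 0) → u.pos = 0 →
    RunL E V P u (res E V p u) ((E.word.length + R + 2) ^ d)

theorem pow_add_pow {X d e : ℕ} (hX : 2 ≤ X) : X ^ d + X ^ e ≤ X ^ (d + e + 1) := by
  have h1 : X ^ d ≤ X ^ (d + e) := Nat.pow_le_pow_right (by omega) (by omega)
  have h2 : X ^ e ≤ X ^ (d + e) := Nat.pow_le_pow_right (by omega) (by omega)
  calc X ^ d + X ^ e ≤ 2 * X ^ (d + e) := by omega
    _ ≤ X * X ^ (d + e) := Nat.mul_le_mul_right _ hX
    _ = X ^ (d + e + 1) := by ring

theorem real_set (i k : ℕ) (f : TS.Fn k) (args : Fin k → ℕ) (hf : TS.LF f) :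
    ∃ d, ∀ b, (CP.set i k f args).rb ≤ b → ∃ P, Real (CP.set i k f args) d b P := by
  have hg : TS.LF (fun I a => min (f I a) (I.O 0)) := TS.LF.min hf (TS.LF.ora (TS.LF.const 0))
  obtain ⟨P0, C, ⟨d, hd⟩, hP⟩ := hg
  refine ⟨(k + 2) * d + 3 + 1, fun b hb => ?_⟩
  simp only [CP.rb] at hb
  have hi : i < b := by
    have := le_max_left (i + 1) (Finset.univ.sup fun j => args j + 1); omega
  have ha : ∀ j, args j < b := by
    intro j
    have h1 : args j + 1 ≤ Finset.univ.sup fun j => args j + 1 :=
      Finset.le_sup (f := fun j => args j + 1) (Finset.mem_univ j)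
    have := le_max_right (i + 1) (Finset.univ.sup fun j => args j + 1)
    omega
  refine ⟨LP.seq (emb (P0 args b (b + 1))) (LP.seq (emb (TS.clear i)) (emb (TS.move b i))), ?_⟩
  intro E V u R hR hB hz hpos
  set X := E.word.length + R + 2 with hX
  have hX2 : 2 ≤ X := by omega
  let s0 : TS.PS := ⟨u.reg, 0, TS.PS.init.tp⟩
  have r1 := hP args b (b + 1) (fun j => by have := ha j; omega) (by omega)
    (fun j => by have := ha j; omega) (inp E V u.tp) s0
    (fun r hr => hz r (by omega)) (hz b le_rfl) rfl
  set v := min (f (inp E V u.tp) (fun j => u.reg (args j))) E.B with hv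
  have hO : (inp E V u.tp).O 0 = E.B := by simp [inp]
  have r1' : TS.Run (inp E V u.tp) (P0 args b (b + 1)) s0 (s0.set b v)
      (C (inp E V u.tp) (fun j => u.reg (args j))) := by
    have e : min (f (inp E V u.tp) (fun j => s0.reg (args j))) ((inp E V u.tp).O 0) = v := by
      rw [hO]
    rw [← e]
    exact r1
  have r2 := TS.run_clear (x := inp E V u.tp) i (s0.set b v)
  have r3 := TS.run_move (x := inp E V u.tp) (r := b) (o := i) (by omega) ((s0.set b v).set i 0)
  have hvB : v ≤ R := (min_le_right _ _).trans hB
  have eb : ((s0.set b v).set i 0).reg b = v := by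
    simp only [TS.PS.set_reg]
    rw [Function.update_of_ne (by omega), Function.update_self]
  have ei : ((s0.set b v).set i 0).reg i = 0 := by
    simp only [TS.PS.set_reg, Function.update_self]
  have ei' : (s0.set b v).reg i = u.reg i := by
    simp only [TS.PS.set_reg]
    rw [Function.update_of_ne (by omega)]
  rw [eb, ei, zero_add] at r3
  rw [ei'] at r2
  have e4 : toLS ((((s0.set b v).set i 0).set b 0).set i v) u.tp =
      res E V (CP.set i k f args) u := by
    unfold res toLS
    simp only [den, St.set_reg, St.set_tp, LS.mk.injEq]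
    refine ⟨?_, rfl, trivial⟩
    funext r
    simp only [TS.PS.set_reg, Function.update_apply]
    by_cases h1 : r = i
    · simp [h1, hv]
    · by_cases h2 : r = b
      · subst h2
        simp only [h1, if_false, if_true]
        exact (hz r le_rfl).symm
      · simp only [h1, h2, if_false]; rfl
  have e0 : toLS s0 u.tp = u := by
    unfold toLS
    show (⟨u.reg, 0, u.tp⟩ : LS) = u
    rw [← hpos]
  have hh := RunL.seq (run_emb r1') (RunL.seq (run_emb r2) (run_emb r3))
  rw [e4, e0] at hh
  refine hh.mono ?_
  have hC : C (inp E V u.tp) (fun j => u.reg (args j)) ≤ X ^ ((k + 2) * d) := by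
    refine (hd _ _).trans ?_
    rw [pow_mul]
    apply Nat.pow_le_pow_left
    unfold TS.mu
    have h3 : ∑ j, u.reg (args j) ≤ k * R := by
      calc ∑ j, u.reg (args j) ≤ ∑ _j : Fin k, R := Finset.sum_le_sum (fun j _ => hR _)
        _ = k * R := by rw [Finset.sum_const, Finset.card_univ, Fintype.card_fin, smul_eq_mul]
    have h4 : k + 2 ≤ X ^ (k + 1) := by
      calc k + 2 ≤ 2 ^ (k + 1) := by
            have := @Nat.lt_two_pow_self (k + 1); omega
        _ ≤ X ^ (k + 1) := Nat.pow_le_pow_left hX2 _
    have h5 : (inp E V u.tp).B = E.B := rfl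
    have h6 : (inp E V u.tp).length = E.word.length := rfl
    rw [h5, h6]
    calc E.word.length + E.B + ∑ j, u.reg (args j) + 2 ≤ (k + 2) * X := by
          have : (k + 2) * X = k * X + 2 * X := by ring
          have h7 : k * R ≤ k * X := Nat.mul_le_mul_left _ (by omega)
          omega
      _ ≤ X ^ (k + 1) * X := Nat.mul_le_mul_right _ h4
      _ = X ^ (k + 2) := by ring
  have hi2 := hR i
  have h8 : u.reg i + 1 + (2 * v + 1) ≤ X ^ 3 := by
    have : 4 * X ≤ X ^ 3 := by
      calc 4 * X = 2 * 2 * X := by ring
        _ ≤ X * X * X := Nat.mul_le_mul_right _ (Nat.mul_le_mul hX2 hX2)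
        _ = X ^ 3 := by ring
    omega
  calc C (inp E V u.tp) (fun j => u.reg (args j)) + (u.reg i + 1 + (2 * v + 1))
      ≤ X ^ ((k + 2) * d) + X ^ 3 := Nat.add_le_add hC h8
    _ ≤ X ^ ((k + 2) * d + 3 + 1) := pow_add_pow hX2

theorem real_all (p : CP) : p.Ok → ∃ d, ∀ b, p.rb ≤ b → ∃ P, Real p d b P := by
  induction p with
  | skip =>
    intro _
    refine ⟨0, fun b _ => ⟨LP.skip, ?_⟩⟩
    intro E V u R hR hB hz hpos
    have e : res E V CP.skip u = u := by
      unfold res
      simp only [den]
      rw [← hpos]
    rw [e]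
    exact (RunL.skip u).mono (Nat.zero_le _)
  | set i k f args => intro h; exact real_set i k f args h
  | wr a d =>
    intro _
    refine ⟨1, fun b _ => ⟨LP.wr a d, ?_⟩⟩
    intro E V u R hR hB hz hpos
    have h1 := RunL.wr (E := E) (V := V) a d u
    have e : res E V (CP.wr a d) u = ⟨u.reg, u.pos, wrT E (u.reg a) (u.reg d) u.tp⟩ := by
      unfold res wrT
      simp only [den]
      rw [← hpos]
      split_ifs <;> rfl
    rw [e]
    exact h1.mono (by rw [pow_one]; omega)
  | seq p q ihp ihq =>
    intro h
    obtain ⟨d1, h1⟩ := ihp h.1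
    obtain ⟨d2, h2⟩ := ihq h.2
    refine ⟨d1 + d2 + 1, fun b hb => ?_⟩
    simp only [CP.rb] at hb
    obtain ⟨P1, hP1⟩ := h1 b (by omega)
    obtain ⟨P2, hP2⟩ := h2 b (by omega)
    refine ⟨LP.seq P1 P2, ?_⟩
    intro E V u R hR hB hz hpos
    have r1 := hP1 E V u R hR hB hz hpos
    have r2 := hP2 E V (res E V p u) R (fun r => den_le hB p _ hR r) hB (fun r hr => by
      show (den E V p ⟨u.reg, u.tp⟩).reg r = 0
      rw [den_frame p (by omega)]
      exact hz r hr) rfl
    exact (RunL.seq r1 r2).mono (pow_add_pow (by omega))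
  | ite r p q ihp ihq =>
    intro h
    obtain ⟨d1, h1⟩ := ihp h.1
    obtain ⟨d2, h2⟩ := ihq h.2
    refine ⟨d1 + d2 + 1, fun b hb => ?_⟩
    simp only [CP.rb] at hb
    obtain ⟨P1, hP1⟩ := h1 b (by omega)
    obtain ⟨P2, hP2⟩ := h2 b (by omega)
    refine ⟨LP.ifz r P2 P1, ?_⟩
    intro E V u R hR hB hz hpos
    have hX2 : 2 ≤ E.word.length + R + 2 := by omega
    have hone1 : 1 ≤ (E.word.length + R + 2) ^ d1 := Nat.one_le_pow _ _ (by omega)
    have hone2 : 1 ≤ (E.word.length + R + 2) ^ d2 := Nat.one_le_pow _ _ (by omega)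
    have hs := @pow_add_pow (E.word.length + R + 2) d1 d2 hX2
    by_cases h0 : u.reg r = 0
    · have e : res E V (CP.ite r p q) u = res E V q u := by
        unfold res
        simp only [den, h0, ne_eq, not_true_eq_false, if_false]
      rw [e]
      exact (RunL.ifz_z h0 (hP2 E V u R hR hB hz hpos)).mono (by omega)
    · have e : res E V (CP.ite r p q) u = res E V p u := by
        unfold res
        simp only [den, ne_eq, h0, not_false_eq_true, if_true]
      rw [e]
      exact (RunL.ifz_nz h0 (hP1 E V u R hR hB hz hpos)).mono (by omega)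
  | loop r p ih =>
    intro h
    obtain ⟨d1, h1⟩ := ih h
    refine ⟨d1 + 6, fun b hb => ?_⟩
    simp only [CP.rb] at hb
    obtain ⟨P1, hP1⟩ := h1 (b + 1) (by omega)
    refine ⟨LP.seq (emb (TS.copy r b (b + 1))) (LP.loop b P1), ?_⟩
    intro E V u R hR hB hz hpos
    set X := E.word.length + R + 2 with hX
    have hX2 : 2 ≤ X := by omega
    have hb0 : u.reg b = 0 := hz b le_rfl
    have hb1 : u.reg (b + 1) = 0 := hz _ (by omega)
    let s0 : TS.PS := ⟨u.reg, 0, TS.PS.init.tp⟩
    have r1 := run_emb (TS.run_copy (x := inp E V u.tp) (r := r) (o := b) (t := b + 1)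
      (by omega) (by omega) (by omega) s0 hb1)
    have e0 : toLS s0 u.tp = u := by
      unfold toLS
      show (⟨u.reg, 0, u.tp⟩ : LS) = u
      rw [← hpos]
    set n := u.reg r with hn
    have e1 : s0.reg b + s0.reg r = n := by
      show u.reg b + u.reg r = n
      omega
    rw [e1, e0] at r1
    -- the states of the loop
    set S : ℕ → LS := fun i =>
      ⟨((((den E V p)^[i] ⟨u.reg, u.tp⟩).set b (n - i)).reg), 0,
        ((den E V p)^[i] ⟨u.reg, u.tp⟩).tp⟩ with hS
    have eS0 : toLS (s0.set b n) u.tp = S 0 := by
      simp only [hS, toLS, Function.iterate_zero, id, St.set_reg, TS.PS.set_reg, TS.PS.set_pos,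
        Nat.sub_zero]
      rfl
    have hreg : ∀ i, ∀ r', ((den E V p)^[i] ⟨u.reg, u.tp⟩).reg r' ≤ R :=
      fun i => iter_reg_le (den_le hB p) i _ hR
    have hfr : ∀ i, ∀ r', b ≤ r' → ((den E V p)^[i] ⟨u.reg, u.tp⟩).reg r' = 0 := by
      intro i r' hr'
      rw [iter_reg_frame (den_frame p (by omega))]
      exact hz r' hr'
    have hnR : n ≤ R := hR r
    have r2 := RunL.loop_iter (E := E) (V := V) (r := b) (p := P1) (c := X ^ d1) n S
      (fun i _ => by simp only [hS, St.set_reg, Function.update_self])
      (fun i hi => by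
        have r3 := hP1 E V ((S i).set b (n - i - 1)) R (fun r' => by
            simp only [hS, LS.set_reg, St.set_reg, Function.update_apply]
            split_ifs
            · omega
            · exact hreg i r') hB (fun r' hr' => by
            simp only [hS, LS.set_reg, St.set_reg, Function.update_apply]
            rw [if_neg (by omega), if_neg (by omega)]
            exact hfr i r' (by omega)) rfl
        have e3 : res E V p ((S i).set b (n - i - 1)) = S (i + 1) := by
          unfold res
          have e4 : (⟨((S i).set b (n - i - 1)).reg, ((S i).set b (n - i - 1)).tp⟩ : St) =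
              ((den E V p)^[i] ⟨u.reg, u.tp⟩).set b (n - i - 1) := by
            simp only [hS, LS.set_reg, LS.set_tp, St.set_reg, Function.update_idem, St.set]
          rw [e4, den_upd p (by omega)]
          simp only [hS, St.set_tp, Function.iterate_succ_apply', St.set_reg, LS.mk.injEq,
            true_and, and_true]
          have : n - (i + 1) = n - i - 1 := by omega
          rw [this]
        rw [e3] at r3
        exact r3)
    have eSn : S n = res E V (CP.loop r p) u := by
      unfold res
      simp only [hS, den, Nat.sub_self, St.set_reg, LS.mk.injEq, true_and]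
      refine ⟨?_, rfl⟩
      funext r'
      by_cases h2 : r' = b
      · subst h2
        rw [Function.update_self]
        exact (hfr n r' le_rfl).symm
      · rw [Function.update_of_ne h2]
    rw [eS0] at r1
    rw [eSn] at r2
    refine (RunL.seq r1 r2).mono ?_
    have hone : 1 ≤ X ^ d1 := Nat.one_le_pow _ _ (by omega)
    have h5 : 5 * s0.reg r + 2 ≤ 5 * X := by
      show 5 * u.reg r + 2 ≤ 5 * X
      omega
    calc 5 * s0.reg r + 2 + (n * (X ^ d1 + 1) + 1)
        ≤ 5 * X + (X * (2 * X ^ d1) + X) := by
          have : n * (X ^ d1 + 1) ≤ X * (2 * X ^ d1) := Nat.mul_le_mul (by omega) (by omega)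
          omega
      _ ≤ 8 * (X * X ^ d1) := by nlinarith
      _ ≤ X ^ 3 * (X * X ^ d1) := Nat.mul_le_mul_right _ (by
          calc 8 = 2 ^ 3 := by norm_num
            _ ≤ X ^ 3 := Nat.pow_le_pow_left hX2 3)
      _ = X ^ (d1 + 4) := by ring
      _ ≤ X ^ (d1 + 6) := Nat.pow_le_pow_right (by omega) (by omega)

end Vale.Agent.P313.CT
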