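import Vale.Agent.P313.CT.Low

/-!
The stack machine computes the values of the levels.
-/

namespace Vale.Agent.P313.CT

theorem val_le (E : Env) (p : CP) (l q : ℕ) (t : Tape) : val E p l q t ≤ E.B := by
  rw [val_eq]; exact min_le_right _ _

theorem wrT_ok {E : Env} (hw : 1 ≤ E.w) {t : Tape} (ht : TOk E t) (a d : ℕ) :
    TOk E (wrT E a d t) := by
  unfold wrT
  split_ifs with h
  · refine ⟨fun j hj => ?_, fun j hj => ?_⟩
    · by_cases e : j = a
      · subst e; rw [Function.update_self]; exact Nat.mod_lt _ hw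
      · rw [Function.update_of_ne e]; exact ht.1 j hj
    · rw [Function.update_of_ne (by omega)]; exact ht.2 j hj
  · exact ht

/-- The answer to a question which is not a call. -/
theorem inp_noncall {E : Env} {p : CP} {l Q : ℕ} {t : Tape}
    (h : ¬ (Q ≠ 0 ∧ Q % 3 = 2 ∧ (Nat.unpair (Q / 3)).1 < l)) :
    (inp E (fun _ _ => 0) t).O Q = (inp E (orc E p l) t).O Q := by
  simp only [inp]
  congr 1
  by_cases h0 : Q = 0
  · simp [h0]
  · rw [if_neg h0, if_neg h0]
    by_cases h1 : Q % 3 = 0
    · rw [if_pos h1, if_pos h1]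
    · rw [if_neg h1, if_neg h1]
      by_cases h2 : Q % 3 = 1
      · rw [if_pos h2, if_pos h2]
      · rw [if_neg h2, if_neg h2]
        unfold orc
        rw [if_neg]
        intro h3
        exact h ⟨h0, by omega, h3⟩

/-- The answer to a question which is a call. -/
theorem inp_call {E : Env} {p : CP} {l Q : ℕ} {t : Tape}
    (h : Q ≠ 0 ∧ Q % 3 = 2 ∧ (Nat.unpair (Q / 3)).1 < l) :
    (inp E (orc E p l) t).O Q =
      val E p (Nat.unpair (Q / 3)).1 (min (Nat.unpair (Q / 3)).2 E.B) t := by
  simp only [inp]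
  rw [if_neg h.1, if_neg (by omega), if_neg (by omega)]
  unfold orc
  rw [if_pos h.2.2]
  exact min_eq_left (val_le _ _ _ _ _)

theorem moveIn_le (n : ℕ) (d : Dir) (p : ℕ) (h : p ≤ n + 1) : moveIn n d p ≤ n + 1 := by
  cases d <;> simp only [moveIn] <;> omega

/-- Paths of the stack machine through bounded configurations. -/
def Pth (code : List LI) (E : Env) (m P D : ℕ) (N : ℕ) (c c' : SC) : Prop :=
  (stepS code E)^[N] c = c' ∧ ∀ j ≤ N, SC.Bd E m P D ((stepS code E)^[j] c)

theorem Pth.refl {code : List LI} {E : Env} {m P D : ℕ} {c : SC} (h : SC.Bd E m P D c) :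
    Pth code E m P D 0 c c :=
  ⟨rfl, fun j hj => by
    have : j = 0 := by omega
    subst this; exact h⟩

theorem Pth.trans {code : List LI} {E : Env} {m P D N N' : ℕ} {c c' c'' : SC}
    (h : Pth code E m P D N c c') (h' : Pth code E m P D N' c' c'') :
    Pth code E m P D (N + N') c c'' := by
  refine ⟨?_, fun j hj => ?_⟩
  · rw [Nat.add_comm, Function.iterate_add_apply, h.1, h'.1]
  · by_cases h1 : j ≤ N
    · exact h.2 j h1
    · have e : j = (j - N) + N := by omega
      rw [e, Function.iterate_add_apply, h.1]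
      exact h'.2 _ (by omega)

theorem Pth.single {code : List LI} {E : Env} {m P D : ℕ} {c c' : SC}
    (h : stepS code E c = c') (hc : SC.Bd E m P D c) (hc' : SC.Bd E m P D c') :
    Pth code E m P D 1 c c' := by
  refine ⟨h, fun j hj => ?_⟩
  interval_cases j
  · exact hc
  · simpa [h] using hc'

variable {code : List LI} {E : Env} {p : CP} {m : ℕ}

/-- Local bounds. -/
structure LB (E : Env) (m R : ℕ) (s : LS) : Prop where
  reg : ∀ i, s.reg i ≤ R
  zer : ∀ i, m ≤ i → s.reg i = 0
  pos : s.pos ≤ E.word.length + 1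
  tp : TOk E s.tp

theorem LB.mono {R R' : ℕ} {s : LS} (h : LB E m R s) (hR : R ≤ R') : LB E m R' s :=
  ⟨fun i => (h.reg i).trans hR, h.zer, h.pos, h.tp⟩

theorem LB.set {R : ℕ} {s : LS} (h : LB E m R s) {r v : ℕ} (hr : r < m) (hv : v ≤ R) :
    LB E m R (s.set r v) := by
  refine ⟨fun i => ?_, fun i hi => ?_, h.pos, h.tp⟩
  · simp only [LS.set_reg]
    by_cases e : i = r
    · subst e; rw [Function.update_self]; exact hv
    · rw [Function.update_of_ne e]; exact h.reg i
  · simp only [LS.set_reg]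
    rw [Function.update_of_ne (by omega)]
    exact h.zer i hi

/-- A step preserves the local bounds. -/
theorem stepL_lb {V : Orc} {R : ℕ} {pc pc' : ℕ} {s s' : LS} (hw : 1 ≤ E.w)
    (hcode : ∀ i ∈ code, i.Rb m) (hB : E.B ≤ R) (h : LB E m R s)
    (hs : stepL code E V (pc, s) = some (pc', s')) : LB E m (R + 1) s' := by
  have h1 := h.mono (Nat.le_succ R)
  unfold stepL at hs
  simp only at hs
  cases hc : code[pc]? with
  | none => rw [hc] at hs; simp at hs
  | some i =>
    have hi := hcode i (List.mem_of_getElem? hc)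
    rw [hc] at hs
    cases i with
    | inc r =>
      simp only [Option.some.injEq, Prod.mk.injEq] at hs
      rw [← hs.2]
      exact h1.set hi (Nat.succ_le_succ (h.reg r))
    | jzdec r l =>
      simp only at hs
      split_ifs at hs with h0
      · simp only [Option.some.injEq, Prod.mk.injEq] at hs
        rw [← hs.2]; exact h1
      · simp only [Option.some.injEq, Prod.mk.injEq] at hs
        rw [← hs.2]
        exact h1.set hi (by have := h.reg r; omega)
    | inL =>
      simp only [Option.some.injEq, Prod.mk.injEq] at hs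
      rw [← hs.2]
      exact ⟨h1.reg, h1.zer, moveIn_le _ Dir.left _ h.pos, h.tp⟩
    | inR =>
      simp only [Option.some.injEq, Prod.mk.injEq] at hs
      rw [← hs.2]
      exact ⟨h1.reg, h1.zer, moveIn_le _ Dir.right _ h.pos, h.tp⟩
    | jin f l =>
      simp only at hs
      split_ifs at hs with h0
      · simp only [Option.some.injEq, Prod.mk.injEq] at hs
        rw [← hs.2]; exact h1
      · simp only [Option.some.injEq, Prod.mk.injEq] at hs
        rw [← hs.2]; exact h1
    | jmp l =>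
      simp only [Option.some.injEq, Prod.mk.injEq] at hs
      rw [← hs.2]; exact h1
    | ora o a =>
      simp only [Option.some.injEq, Prod.mk.injEq] at hs
      rw [← hs.2]
      exact h1.set hi.1 (((inp E V s.tp).hO _).trans (hB.trans (Nat.le_succ R)))
    | wr a d =>
      simp only [Option.some.injEq, Prod.mk.injEq] at hs
      rw [← hs.2]
      exact ⟨h1.reg, h1.zer, h1.pos, wrT_ok hw h.tp _ _⟩

/-- A non-calling step is one step of the stack machine. -/
theorem stepS_noncall {l : ℕ} {pc pc' : ℕ} {s s' : LS} {rest : List Fr}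
    (hs : stepL code E (orc E p l) (pc, s) = some (pc', s'))
    (hn : ∀ o a, code[pc]? = some (LI.ora o a) →
      ¬ (s.reg a ≠ 0 ∧ s.reg a % 3 = 2 ∧ (Nat.unpair (s.reg a / 3)).1 < l)) :
    stepS code E ⟨⟨pc, s.reg, s.pos, l⟩ :: rest, s.tp⟩ =
      ⟨⟨pc', s'.reg, s'.pos, l⟩ :: rest, s'.tp⟩ := by
  unfold stepL at hs
  unfold stepS
  simp only at hs ⊢
  cases hc : code[pc]? with
  | none => rw [hc] at hs; simp at hs
  | some i =>
    rw [hc] at hs
    cases i with
    | inc r =>
      simp only [Option.some.injEq, Prod.mk.injEq] at hs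
      rw [← hs.1, ← hs.2]; rfl
    | jzdec r l =>
      simp only at hs ⊢
      split_ifs at hs with h0
      · simp only [Option.some.injEq, Prod.mk.injEq] at hs
        rw [← hs.1, ← hs.2, if_pos h0]
      · simp only [Option.some.injEq, Prod.mk.injEq] at hs
        rw [← hs.1, ← hs.2, if_neg h0]; rfl
    | inL =>
      simp only [Option.some.injEq, Prod.mk.injEq] at hs
      rw [← hs.1, ← hs.2]
    | inR =>
      simp only [Option.some.injEq, Prod.mk.injEq] at hs
      rw [← hs.1, ← hs.2]
    | jin f l =>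
      simp only at hs ⊢
      split_ifs at hs with h0
      · simp only [Option.some.injEq, Prod.mk.injEq] at hs
        rw [← hs.1, ← hs.2, if_pos h0]
      · simp only [Option.some.injEq, Prod.mk.injEq] at hs
        rw [← hs.1, ← hs.2, if_neg h0]
    | jmp l =>
      simp only [Option.some.injEq, Prod.mk.injEq] at hs
      rw [← hs.1, ← hs.2]
    | ora o a =>
      simp only [Option.some.injEq, Prod.mk.injEq] at hs
      simp only
      have := hn o a hc
      rw [← hs.1, ← hs.2, if_neg this, inp_noncall this]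
      rfl
    | wr a d =>
      simp only [Option.some.injEq, Prod.mk.injEq] at hs
      rw [← hs.1, ← hs.2]

/-- A bounded configuration from local bounds. -/
theorem bd_of {P D R l pc : ℕ} {s : LS} {rest : List Fr} (h : LB E m R s) (hR : R < P)
    (hpc : pc < P) (hl : l < P) (hn : E.word.length + 1 < P)
    (hrest : ∀ f ∈ rest, f.Bd m P ∧ 0 < f.lev) (hD : rest.length + 1 ≤ D) :
    SC.Bd E m P D ⟨⟨pc, s.reg, s.pos, l⟩ :: rest, s.tp⟩ := by
  refine ⟨h.tp, by simp, by simpa using hD, ?_, ?_⟩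
  · intro f hf
    simp only [List.mem_cons] at hf
    rcases hf with rfl | hf
    · exact ⟨hpc, fun i => (h.reg i).trans_lt hR, h.zer, lt_of_le_of_lt h.pos hn, hl⟩
    · exact (hrest f hf).1
  · intro f hf
    exact (hrest f hf).2

/-- Simulation of the goto code of one level, given the lower levels. -/
theorem sim_level {A P l top : ℕ} (hw : 1 ≤ E.w) (hcode : ∀ i ∈ code, i.Rb m)
    (hP : code.length < P) (hP1 : E.B + A < P) (hP2 : E.word.length + 1 < P)
    (hl : l ≤ top) (hltop : top ≤ E.B)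
    (ih : ∀ l' < l, ∀ q ≤ E.B, ∀ t, TOk E t → ∀ rest : List Fr,
      (∀ f ∈ rest, f.Bd m P ∧ 0 < f.lev) → rest.length + l' ≤ top →
      ∃ (N : ℕ) (f : Fr), N ≤ (3 * A + 3) ^ (l' + 1) ∧ f.pc = code.length ∧
        min (f.reg 2) E.B = val E p l' q t ∧
        Pth code E m P (top + 1) N ⟨newFr l' q :: rest, t⟩ ⟨f :: rest, t⟩)
    {rest : List Fr} (hrest : ∀ f ∈ rest, f.Bd m P ∧ 0 < f.lev) (hlen : rest.length + l ≤ top)
    {n : ℕ} {c c' : ℕ × LS} (hst : StepsL code E (orc E p l) n c c') (hc' : c'.1 = code.length) :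
    ∀ k, k + n ≤ A → LB E m (E.B + k) c.2 →
    ∃ N, N ≤ n * ((3 * A + 3) ^ l + 2) ∧
      Pth code E m P (top + 1) N ⟨⟨c.1, c.2.reg, c.2.pos, l⟩ :: rest, c.2.tp⟩
        ⟨⟨c'.1, c'.2.reg, c'.2.pos, l⟩ :: rest, c'.2.tp⟩ := by
  have hD : rest.length + 1 ≤ top + 1 := by omega
  induction hst with
  | refl c =>
    intro k hk hb
    refine ⟨0, by omega, Pth.refl ?_⟩
    exact bd_of hb (by omega) (by omega) (by omega) hP2 hrest hD
  | @head n c c1 c2 hs _ ih2 =>
    intro k hk hb
    obtain ⟨pc, s⟩ := c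
    obtain ⟨pc1, s1⟩ := c1
    simp only at hb ⊢
    have hb1 : LB E m (E.B + k + 1) s1 := stepL_lb hw hcode (by omega) hb hs
    obtain ⟨N2, hN2, hpth2⟩ := ih2 hc' (k + 1) (by omega) hb1
    have hpc : pc < code.length := by
      by_contra hcon
      unfold stepL at hs
      simp only at hs
      rw [List.getElem?_eq_none (by omega)] at hs
      simp at hs
    have hbd : SC.Bd E m P (top + 1) ⟨⟨pc, s.reg, s.pos, l⟩ :: rest, s.tp⟩ :=
      bd_of hb (by omega) (by omega) (by omega) hP2 hrest hD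
    have hbd1 : SC.Bd E m P (top + 1) ⟨⟨pc1, s1.reg, s1.pos, l⟩ :: rest, s1.tp⟩ := by
      have := hpth2.2 0 (by omega)
      simpa using this
    have hone : 1 ≤ (3 * A + 3) ^ l := Nat.one_le_pow _ _ (by omega)
    by_cases hcall : ∃ o a, code[pc]? = some (LI.ora o a) ∧
        (s.reg a ≠ 0 ∧ s.reg a % 3 = 2 ∧ (Nat.unpair (s.reg a / 3)).1 < l)
    · obtain ⟨o, a, hc, hq⟩ := hcall
      set l' := (Nat.unpair (s.reg a / 3)).1 with hl'
      set q' := min (Nat.unpair (s.reg a / 3)).2 E.B with hq'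
      have hf : ∀ f ∈ (⟨pc, s.reg, s.pos, l⟩ : Fr) :: rest, f.Bd m P ∧ 0 < f.lev := by
        intro f hf
        rcases List.mem_cons.1 hf with rfl | hf
        · exact ⟨hbd.2.2.2.1 _ (by simp), by simp only; omega⟩
        · exact hrest f hf
      obtain ⟨N1, f1, hN1, hf1, hv, hpth1⟩ := ih l' hq.2.2 q' (min_le_right _ _) s.tp hb.tp
        (⟨pc, s.reg, s.pos, l⟩ :: rest) hf (by simp only [List.length_cons]; omega)
      -- the push
      have hstep1 : stepS code E ⟨⟨pc, s.reg, s.pos, l⟩ :: rest, s.tp⟩ =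
          ⟨newFr l' q' :: ⟨pc, s.reg, s.pos, l⟩ :: rest, s.tp⟩ := by
        unfold stepS
        simp only [hc]
        rw [if_pos hq]
      have hb0 : SC.Bd E m P (top + 1) ⟨newFr l' q' :: ⟨pc, s.reg, s.pos, l⟩ :: rest, s.tp⟩ := by
        have := hpth1.2 0 (by omega)
        simpa using this
      -- the return
      have hs1 : pc1 = pc + 1 ∧ s1 = s.set o (val E p l' q' s.tp) := by
        unfold stepL at hs
        simp only [hc, Option.some.injEq, Prod.mk.injEq] at hs
        rw [inp_call hq] at hs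
        exact ⟨hs.1.symm, hs.2.symm⟩
      have hstep2 : stepS code E ⟨f1 :: ⟨pc, s.reg, s.pos, l⟩ :: rest, s.tp⟩ =
          ⟨⟨pc1, s1.reg, s1.pos, l⟩ :: rest, s1.tp⟩ := by
        unfold stepS
        simp only
        rw [hf1, List.getElem?_eq_none (le_refl _)]
        simp only
        unfold recv
        simp only [hc]
        rw [hs1.1, hs1.2, hv]
        rfl
      have hbf : SC.Bd E m P (top + 1) ⟨f1 :: ⟨pc, s.reg, s.pos, l⟩ :: rest, s.tp⟩ := by
        have := hpth1.2 N1 le_rfl
        rwa [hpth1.1] at this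
      refine ⟨1 + N1 + 1 + N2, ?_,
        (((Pth.single hstep1 hbd hb0).trans hpth1).trans (Pth.single hstep2 hbf hbd1)).trans hpth2⟩
      have hle : (3 * A + 3) ^ (l' + 1) ≤ (3 * A + 3) ^ l :=
        Nat.pow_le_pow_right (by omega) hq.2.2
      have e : (n + 1) * ((3 * A + 3) ^ l + 2) = n * ((3 * A + 3) ^ l + 2) +
        ((3 * A + 3) ^ l + 2) := by ring
      omega
    · have hstep := stepS_noncall (rest := rest) hs (fun o a hc hq => hcall ⟨o, a, hc, hq⟩)
      refine ⟨1 + N2, ?_, (Pth.single hstep hbd hbd1).trans hpth2⟩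
      have e : (n + 1) * ((3 * A + 3) ^ l + 2) = n * ((3 * A + 3) ^ l + 2) +
        ((3 * A + 3) ^ l + 2) := by ring
      omega

/-- A call of level `l`. -/
theorem run_call {A P top : ℕ} (hw : 1 ≤ E.w) (hm : 3 ≤ m) (hcode : ∀ i ∈ code, i.Rb m)
    (hP : code.length < P) (hP1 : E.B + A < P) (hP2 : E.word.length + 1 < P)
    (hltop : top ≤ E.B) (hres : Restores E p top)
    (hrun : ∀ (V : Orc) (l q : ℕ) (t : Tape), l ≤ E.B → q ≤ E.B →
      ∃ n reg', n ≤ A ∧
        reg' 2 = (den E V p ⟨start l q, t⟩).reg 2 ∧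
        StepsL code E V n (0, ⟨start l q, 0, t⟩)
          (code.length, ⟨reg', 0, (den E V p ⟨start l q, t⟩).tp⟩)) :
    ∀ l ≤ top, ∀ q ≤ E.B, ∀ t, TOk E t → ∀ rest : List Fr,
      (∀ f ∈ rest, f.Bd m P ∧ 0 < f.lev) → rest.length + l ≤ top →
      ∃ (N : ℕ) (f : Fr), N ≤ (3 * A + 3) ^ (l + 1) ∧ f.pc = code.length ∧
        min (f.reg 2) E.B = val E p l q t ∧
        Pth code E m P (top + 1) N ⟨newFr l q :: rest, t⟩ ⟨f :: rest, t⟩ := by
  intro l
  induction l using Nat.strong_induction_on with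
  | _ l ih =>
    intro hl q hq t ht rest hrest hlen
    obtain ⟨n, reg', hn, hreg, hst⟩ := hrun (orc E p l) l q t (by omega) hq
    have hb : LB E m (E.B + 0) ⟨start l q, 0, t⟩ := by
      refine ⟨fun i => ?_, fun i hi => ?_, by simp, ht⟩
      · simp only [start]; split_ifs <;> omega
      · simp only [start]; rw [if_neg (by omega), if_neg (by omega)]
    obtain ⟨N, hN, hpth⟩ := sim_level (A := A) (P := P) hw hcode hP hP1 hP2 hl hltop
      (fun l' hl' q hq t ht rest hrest hlen => ih l' hl' (by omega) q hq t ht rest hrest hlen)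
      hrest hlen hst rfl 0 (by omega) hb
    refine ⟨N, ⟨code.length, reg', 0, l⟩, ?_, rfl, ?_, ?_⟩
    · refine hN.trans ?_
      have h1 : 1 ≤ (3 * A + 3) ^ l := Nat.one_le_pow _ _ (by omega)
      calc n * ((3 * A + 3) ^ l + 2) ≤ A * ((3 * A + 3) ^ l + 2) := Nat.mul_le_mul_right _ hn
        _ ≤ A * (3 * (3 * A + 3) ^ l) := Nat.mul_le_mul_left _ (by omega)
        _ ≤ (3 * A + 3) * (3 * A + 3) ^ l := by nlinarith
        _ = (3 * A + 3) ^ (l + 1) := by ring
    · simp only
      rw [hreg, val_eq]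
    · have h2 := hres l hl q hq t ht
      simp only at hpth
      rw [h2] at hpth
      exact hpth

theorem iter_fix {f : SC → SC} {c : SC} (h : f c = c) : ∀ n, f^[n] c = c := by
  intro n
  induction n with
  | zero => rfl
  | succ n ih => rw [Function.iterate_succ_apply, h, ih]

theorem spec_E2 : Spec_E2 := by
  intro p code m c hm hcode hrun
  refine ⟨c + code.length + 4, fun E top q hw htop hq hres => ?_⟩
  set X := E.word.length + E.B + 2 with hX
  set A := X ^ c with hA
  set P := X ^ (c + code.length + 4) with hP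
  have hX2 : 2 ≤ X := by omega
  have hA1 : 1 ≤ A := Nat.one_le_pow _ _ (by omega)
  have hcl : code.length < X ^ (code.length + 1) := by
    calc code.length < 2 ^ (code.length + 1) := by
          have := @Nat.lt_two_pow_self (code.length + 1); omega
      _ ≤ X ^ (code.length + 1) := Nat.pow_le_pow_left hX2 _
  have hPe : P = A * X ^ (code.length + 1) * X ^ 3 := by
    rw [hP, hA, ← pow_add, ← pow_add]; congr 1
  have hX3 : 4 * X ≤ X ^ 3 := by
    calc 4 * X = 2 * 2 * X := by ring
      _ ≤ X * X * X := Nat.mul_le_mul_right _ (Nat.mul_le_mul hX2 hX2)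
      _ = X ^ 3 := by ring
  have hc1 : 1 ≤ X ^ (code.length + 1) := Nat.one_le_pow _ _ (by omega)
  have hPA : A * X ^ 3 ≤ P := by
    rw [hPe]
    exact Nat.mul_le_mul_right _ (Nat.le_mul_of_pos_right _ hc1)
  have hPc : X ^ (code.length + 1) * X ^ 3 ≤ P := by
    rw [hPe, Nat.mul_assoc]
    exact Nat.le_mul_of_pos_left _ hA1
  have h1 : code.length < P := by
    refine hcl.trans_le (le_trans ?_ hPc)
    exact Nat.le_mul_of_pos_right _ (by positivity)
  have hXP : 4 * X ≤ X ^ 3 := hX3
  have h4 : 4 * A * X ≤ P := by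
    calc 4 * A * X = A * (4 * X) := by ring
      _ ≤ A * X ^ 3 := Nat.mul_le_mul_left _ hX3
      _ ≤ P := hPA
  have h2 : E.B + A < P := by nlinarith
  have h3 : E.word.length + 1 < P := by nlinarith
  obtain ⟨N, f, hN, hf, hv, hpth⟩ := run_call (A := A) (P := P) hw hm hcode h1 h2 h3 htop hres
    (fun V l q t hl hq => hrun E V l q t hl hq) top le_rfl q hq (fun _ => 0)
    ⟨fun _ _ => hw, fun _ _ => rfl⟩ [] (by simp) (by simp)
  have hfix : stepS code E ⟨[f], fun _ => 0⟩ = ⟨[f], fun _ => 0⟩ := by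
    unfold stepS
    simp only
    rw [hf, List.getElem?_eq_none (le_refl _)]
  have hlate : ∀ j, N ≤ j → (stepS code E)^[j] ⟨[newFr top q], fun _ => 0⟩ =
      ⟨[f], fun _ => 0⟩ := by
    intro j hj
    have e : j = (j - N) + N := by omega
    rw [e, Function.iterate_add_apply, hpth.1, iter_fix hfix]
  refine ⟨N, f, ?_, fun j => ?_, hlate, hv⟩
  · refine hN.trans ?_
    rw [pow_mul]
    apply Nat.pow_le_pow_left
    nlinarith
  · by_cases hj : j ≤ N
    · exact hpth.2 j hj
    · rw [hlate j (by omega)]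
      have := hpth.2 N le_rfl
      rwa [hpth.1] at this

end Vale.Agent.P313.CT
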