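import Vale.Agent.P313.BundleTS

/-!
Structured programs with private registers and a shared tape, and the recursion over levels.
-/

namespace Vale.Agent.P313.CT

/-- The shared tape. -/
abbrev Tape := ℕ → ℕ

/-- The environment: the input word, a bound `B` for private registers, the size `w` of the tape
alphabet, the number `L` of cells, the static digits. -/
structure Env where
  word : List Bool
  B : ℕ
  w : ℕ
  L : ℕ
  st : ℕ → ℕ

/-- Values of the lower levels at a query and a tape. -/
abbrev Orc := ℕ → Tape → ℕ

/-- The input seen by the functions in `set` commands: question `0` gives the bound `B`, question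
`3 j + 3` is static digit `j`, question `3 j + 1` is tape cell `j`, question `3 q + 2` is the value
of the lower levels at query `q` and the current tape. -/
def inp (E : Env) (V : Orc) (t : Tape) : TS.Inp where
  word := E.word
  O := fun Q => min (if Q = 0 then E.B else if Q % 3 = 0 then E.st (Q / 3 - 1)
    else if Q % 3 = 1 then t (Q / 3) else V (Q / 3) t) E.B
  B := E.B
  hO := fun _ => min_le_right _ _
  H := 0

/-- States: private registers and the tape. -/
@[ext] structure St where
  reg : ℕ → ℕ
  tp : Tape

/-- Change one register. -/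
def St.set (s : St) (i v : ℕ) : St := ⟨Function.update s.reg i v, s.tp⟩

@[simp] theorem St.set_reg (s : St) (i v : ℕ) : (s.set i v).reg = Function.update s.reg i v := rfl
@[simp] theorem St.set_tp (s : St) (i v : ℕ) : (s.set i v).tp = s.tp := rfl

/-- Structured programs. `set i k f args`: register `i` gets the value of `f` at the registers
`args`; `wr a d`: the tape cell with address in register `a` gets the digit in register `d`;
`ite r p q`: `p` if register `r` is nonzero, otherwise `q`; `loop r p`: repeat `p`, as often as
register `r` says at the start. -/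
inductive CP where
  | skip
  | set (i k : ℕ) (f : TS.Fn k) (args : Fin k → ℕ)
  | wr (a d : ℕ)
  | seq (p q : CP)
  | ite (r : ℕ) (p q : CP)
  | loop (r : ℕ) (p : CP)

/-- All functions are in `LF`. -/
def CP.Ok : CP → Prop
  | .skip => True
  | .set _ _ f _ => TS.LF f
  | .wr _ _ => True
  | .seq p q => p.Ok ∧ q.Ok
  | .ite _ p q => p.Ok ∧ q.Ok
  | .loop _ p => p.Ok

/-- The meaning of a program. -/
def den (E : Env) (V : Orc) : CP → St → St
  | .skip, s => s
  | .set i _ f args, s => s.set i (min (f (inp E V s.tp) (fun j => s.reg (args j))) E.B)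
  | .wr a d, s =>
    if s.reg a < E.L then ⟨s.reg, Function.update s.tp (s.reg a) (s.reg d % E.w)⟩ else s
  | .seq p q, s => den E V q (den E V p s)
  | .ite r p q, s => if s.reg r ≠ 0 then den E V p s else den E V q s
  | .loop r p, s => (den E V p)^[s.reg r] s

/-- The registers at the start of level `l` with query `q`. -/
def start (l q : ℕ) : ℕ → ℕ := fun i => if i = 0 then l else if i = 1 then q else 0

/-- The values of the levels: the value of level `l` is what the program leaves in register `2`
when it is started with `l` in register `0` and the query in register `1` (cut at `B`), and when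
its questions to lower levels are answered by the values of these levels. Other questions get the
answer `0`; queries above `B` are replaced by `B`. -/
def val (E : Env) (p : CP) (l q : ℕ) (t : Tape) : ℕ :=
  min ((den E (fun Q t' => if h : (Nat.unpair Q).1 < l then
    val E p (Nat.unpair Q).1 (min (Nat.unpair Q).2 E.B) t' else 0) p ⟨start l q, t⟩).reg 2) E.B
termination_by l

/-- What level `l` can ask. -/
def orc (E : Env) (p : CP) (l : ℕ) : Orc := fun Q t' =>
  if (Nat.unpair Q).1 < l then val E p (Nat.unpair Q).1 (min (Nat.unpair Q).2 E.B) t' else 0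

theorem val_eq (E : Env) (p : CP) (l q : ℕ) (t : Tape) :
    val E p l q t = min ((den E (orc E p l) p ⟨start l q, t⟩).reg 2) E.B := by
  rw [val]
  rfl

/-- Valid tapes. -/
def TOk (E : Env) (t : Tape) : Prop := (∀ j < E.L, t j < E.w) ∧ ∀ j, E.L ≤ j → t j = 0

/-- Every level up to `top` leaves the tape as it was. -/
def Restores (E : Env) (p : CP) (top : ℕ) : Prop :=
  ∀ l ≤ top, ∀ q ≤ E.B, ∀ t, TOk E t → (den E (orc E p l) p ⟨start l q, t⟩).tp = t

/-- Computable environments. -/
structure EnvC (k : ℕ) where
  B : P313.Fn k
  w : P313.Fn k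
  L : P313.Fn k
  st : P313.Fn (k + 1)

/-- The environment at given arguments. -/
def EnvC.at {k : ℕ} (e : EnvC k) (x : List Bool) (a : Fin k → ℕ) : Env :=
  ⟨x, e.B x a, e.w x a, e.L x a, fun j => e.st x (Fin.cons j a)⟩

/-- The components are in `LF`. -/
structure EnvC.Ok {k : ℕ} (e : EnvC k) : Prop where
  B : P313.LF e.B
  w : P313.LF e.w
  L : P313.LF e.L
  st : P313.LF e.st

/-- THE ENGINE: the value of the top level is computed in `LF` if some argument is at least
`w ^ L` times `(n + B + 2) ^ (c * (top + 1))`. -/
def Spec_ENGINE : Prop :=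
  ∀ (p : CP), p.Ok → ∃ c : ℕ, ∀ (k : ℕ) (e : EnvC k) (top q0 W : P313.Fn k), e.Ok →
    P313.LF top → P313.LF q0 → P313.LF W →
    ∃ G : P313.Fn k, P313.LF G ∧ (∀ x a, G x a ≤ e.B x a) ∧ ∀ x a, 1 ≤ e.w x a →
      top x a ≤ e.B x a → q0 x a ≤ e.B x a →
      e.w x a ^ e.L x a * (x.length + e.B x a + 2) ^ (c * (top x a + 1)) ≤ W x a →
      Restores (e.at x a) p (top x a) →
      G x a = val (e.at x a) p (top x a) (q0 x a) (fun _ => 0)

end Vale.Agent.P313.CT
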