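import Vale.Agent.P313.CT.Low

/-!
Toolkit for programs: questions, dispatch on the phase of a level, induction over levels.
-/

namespace Vale.Agent.P313.CT

section lf

variable {k : ℕ}

theorem leastBelow_sqrt (n : ℕ) :
    leastBelow (fun i => n < (i + 1) * (i + 1)) (n + 1) = Nat.sqrt n := by
  refine leastBelow_eq ?_ (Nat.lt_succ_sqrt n) (fun j hj => ?_)
  · exact Nat.lt_succ_of_le (Nat.sqrt_le_self n)
  · have h1 : (j + 1) * (j + 1) ≤ Nat.sqrt n * Nat.sqrt n := Nat.mul_le_mul hj hj
    have h2 := Nat.sqrt_le n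
    omega

theorem lf_sqrt {f : TS.Fn k} (hf : TS.LF f) : TS.LF (fun I a => Nat.sqrt (f I a)) := by
  have h1 := TS.LF.least (k := k) (P := fun I b => f I (Fin.tail b) < (b 0 + 1) * (b 0 + 1))
    (n := fun I a => f I a + 1)
    (TS.LFP.lt hf.weak ((TS.LF.proj 0).succ.mul (TS.LF.proj 0).succ)) hf.succ
  refine h1.congr (fun I a => ?_)
  simp only [Fin.tail_cons, Fin.cons_zero]
  exact leastBelow_sqrt _

/-- Pairing. -/
theorem lf_pair {f g : TS.Fn k} (hf : TS.LF f) (hg : TS.LF g) :
    TS.LF (fun I a => Nat.pair (f I a) (g I a)) := by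
  refine (TS.LF.ite (TS.LFP.lt hf hg) ((hg.mul hg).add hf)
    (((hf.mul hf).add hf).add hg)).congr (fun I a => ?_)
  simp only [Nat.pair]

theorem lf_unpair1 {f : TS.Fn k} (hf : TS.LF f) : TS.LF (fun I a => (Nat.unpair (f I a)).1) := by
  have hs := lf_sqrt hf
  have hd := hf.sub (hs.mul hs)
  refine (TS.LF.ite (TS.LFP.lt hd hs) hd hs).congr (fun I a => ?_)
  simp only [Nat.unpair]
  split_ifs <;> rfl

theorem lf_unpair2 {f : TS.Fn k} (hf : TS.LF f) : TS.LF (fun I a => (Nat.unpair (f I a)).2) := by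
  have hs := lf_sqrt hf
  have hd := hf.sub (hs.mul hs)
  refine (TS.LF.ite (TS.LFP.lt hd hs) hs (hd.sub hs)).congr (fun I a => ?_)
  simp only [Nat.unpair]
  split_ifs <;> rfl

/-- Asking level `l'` the query `q'`. -/
def ask (I : TS.Inp) (l' q' : ℕ) : ℕ := I.O (3 * Nat.pair l' q' + 2)

/-- Reading a cell of the tape. -/
def cell (I : TS.Inp) (j : ℕ) : ℕ := I.O (3 * j + 1)

/-- Reading a static digit. -/
def stat (I : TS.Inp) (j : ℕ) : ℕ := I.O (3 * j + 3)

/-- The bound for private registers. -/
def bnd (I : TS.Inp) : ℕ := I.O 0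

theorem lf_ask {f g : TS.Fn k} (hf : TS.LF f) (hg : TS.LF g) :
    TS.LF (fun I a => ask I (f I a) (g I a)) :=
  TS.LF.ora (((TS.LF.const 3).mul (lf_pair hf hg)).add (TS.LF.const 2))

theorem lf_cell {f : TS.Fn k} (hf : TS.LF f) : TS.LF (fun I a => cell I (f I a)) :=
  TS.LF.ora (((TS.LF.const 3).mul hf).add (TS.LF.const 1))

theorem lf_stat {f : TS.Fn k} (hf : TS.LF f) : TS.LF (fun I a => stat I (f I a)) :=
  TS.LF.ora (((TS.LF.const 3).mul hf).add (TS.LF.const 3))

theorem lf_bnd : TS.LF (fun I _ => bnd I : TS.Fn k) := TS.LF.ora (TS.LF.const 0)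

end lf

variable {E : Env} {V : Orc} {t : Tape}

theorem ask_inp (l' q' : ℕ) : ask (inp E V t) l' q' = min (V (Nat.pair l' q') t) E.B := by
  simp only [ask, inp]
  rw [if_neg (by omega), if_neg (by omega), if_neg (by omega)]
  have : (3 * Nat.pair l' q' + 2) / 3 = Nat.pair l' q' := by omega
  rw [this]

theorem cell_inp (j : ℕ) : cell (inp E V t) j = min (t j) E.B := by
  simp only [cell, inp]
  rw [if_neg (by omega), if_neg (by omega), if_pos (by omega)]
  have : (3 * j + 1) / 3 = j := by omega
  rw [this]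

theorem stat_inp (j : ℕ) : stat (inp E V t) j = min (E.st j) E.B := by
  simp only [stat, inp]
  rw [if_neg (by omega), if_pos (by omega)]
  have : (3 * j + 3) / 3 - 1 = j := by omega
  rw [this]

theorem bnd_inp : bnd (inp E V t) = E.B := by simp [bnd, inp]

@[simp] theorem inp_word : (inp E V t).word = E.word := rfl
@[simp] theorem inp_B : (inp E V t).B = E.B := rfl

/-- What a question to a lower level gives. -/
theorem ask_orc {p : CP} {l l' : ℕ} (h : l' < l) (q' : ℕ) :
    ask (inp E (orc E p l) t) l' q' = val E p l' (min q' E.B) t := by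
  rw [ask_inp]
  unfold orc
  rw [Nat.unpair_pair]
  simp only [h, if_true]
  rw [val_eq]
  exact min_eq_left (min_le_right _ _)

/-- What a question to another level gives. -/
theorem ask_orc_of_le {p : CP} {l l' : ℕ} (h : l ≤ l') (q' : ℕ) :
    ask (inp E (orc E p l) t) l' q' = 0 := by
  rw [ask_inp]
  unfold orc
  rw [Nat.unpair_pair]
  simp only [Nat.not_lt.2 h, if_false]
  exact Nat.min_eq_left (Nat.zero_le _)

/-- Choice of a program by the register `r`, which is set to zero. -/
def swt (r : ℕ) : List CP → CP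
  | [] => .skip
  | p :: ps => .ite r (.seq (.set r 1 (fun _ a => a 0 - 1) (fun _ => r)) (swt r ps)) p

/-- Dispatch: `ph` is a function of register `0` (the level); the program with this number is
run. -/
def sel (ph : TS.Fn 1) (ps : List CP) : CP := .seq (.set 3 1 ph (fun _ => 0)) (swt 3 ps)

theorem swt_ok {r : ℕ} {ps : List CP} (h : ∀ p ∈ ps, p.Ok) : (swt r ps).Ok := by
  induction ps with
  | nil => trivial
  | cons p ps ih =>
    refine ⟨⟨(TS.LF.proj 0).sub (TS.LF.const 1), ih (fun q hq => h q (List.mem_cons_of_mem _ hq))⟩,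
      h p (by simp)⟩

theorem sel_ok {ph : TS.Fn 1} {ps : List CP} (hph : TS.LF ph) (h : ∀ p ∈ ps, p.Ok) :
    (sel ph ps).Ok := ⟨hph, swt_ok h⟩

theorem den_swt {r : ℕ} : ∀ (ps : List CP) (n : ℕ) (hn : n < ps.length) (s : St), n ≤ E.B →
    den E V (swt r ps) (s.set r n) = den E V ps[n] (s.set r 0) := by
  intro ps
  induction ps with
  | nil => intro n hn; simp at hn
  | cons p ps ih =>
    intro n hn s hB
    show den E V (.ite r _ p) (s.set r n) = _
    cases n with
    | zero =>
      simp only [den, St.set_reg, Function.update_self, ne_eq, not_true_eq_false, if_false]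
      rfl
    | succ n =>
      have h1 : den E V (.set r 1 (fun _ a => a 0 - 1) (fun _ => r)) (s.set r (n + 1)) =
          s.set r n := by
        simp only [den, St.set_reg, Function.update_self, Nat.add_sub_cancel, St.set,
          Function.update_idem]
        rw [min_eq_left (by omega)]
      have h2 : den E V (.ite r (.seq (.set r 1 (fun _ a => a 0 - 1) (fun _ => r)) (swt r ps)) p)
          (s.set r (n + 1)) = den E V (swt r ps)
            (den E V (.set r 1 (fun _ a => a 0 - 1) (fun _ => r)) (s.set r (n + 1))) := by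
        simp only [den, St.set_reg, Function.update_self, ne_eq, Nat.add_eq_zero_iff,
          one_ne_zero, and_false, not_false_eq_true, if_true]
      rw [h2, h1, ih n (by simpa using hn) s (by omega)]
      rfl

/-- The program of phase `n` is started exactly in the start state. -/
theorem den_sel {ph : TS.Fn 1} {ps : List CP} {l q n : ℕ} (hn : n < ps.length) (hB : n ≤ E.B)
    (hph : ph (inp E V t) (fun _ => l) = n) :
    den E V (sel ph ps) ⟨start l q, t⟩ = den E V ps[n] ⟨start l q, t⟩ := by
  have e0 : (fun j : Fin 1 => start l q ((fun _ => 0 : Fin 1 → ℕ) j)) = fun _ => l := by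
    funext j; rfl
  have h1 : den E V (.set 3 1 ph (fun _ => 0)) ⟨start l q, t⟩ =
      (⟨start l q, t⟩ : St).set 3 n := by
    simp only [den]
    have : ph (inp E V t) (fun _ => start l q 0) = n := hph
    rw [this, min_eq_left hB]
  show den E V (swt 3 ps) (den E V (.set 3 1 ph (fun _ => 0)) ⟨start l q, t⟩) = _
  rw [h1, den_swt ps n hn _ hB]
  have e : (⟨start l q, t⟩ : St).set 3 0 = ⟨start l q, t⟩ := by
    simp only [St.set, St.mk.injEq, and_true]
    funext i
    by_cases hi : i = 3
    · subst hi; rw [Function.update_self]; rfl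
    · rw [Function.update_of_ne hi]
  rw [e]

/-- Induction over levels: if every level restores the tape and meets its specification as soon as
all lower levels meet theirs, then all levels restore the tape and meet their specifications. -/
theorem levels_ind {p : CP} {top : ℕ} {Sp : ℕ → ℕ → Tape → ℕ → Prop}
    (h : ∀ l ≤ top, (∀ l' < l, ∀ q ≤ E.B, ∀ t, TOk E t → Sp l' q t (val E p l' q t)) →
      ∀ q ≤ E.B, ∀ t, TOk E t → (den E (orc E p l) p ⟨start l q, t⟩).tp = t ∧
        Sp l q t (min ((den E (orc E p l) p ⟨start l q, t⟩).reg 2) E.B)) :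
    Restores E p top ∧ ∀ l ≤ top, ∀ q ≤ E.B, ∀ t, TOk E t → Sp l q t (val E p l q t) := by
  have h2 : ∀ l ≤ top, ∀ q ≤ E.B, ∀ t, TOk E t → Sp l q t (val E p l q t) := by
    intro l
    induction l using Nat.strong_induction_on with
    | _ l ih =>
      intro hl q hq t ht
      rw [val_eq]
      exact (h l hl (fun l' hl' => ih l' hl' (by omega)) q hq t ht).2
  exact ⟨fun l hl q hq t ht => (h l hl (fun l' hl' => h2 l' (by omega)) q hq t ht).1, h2⟩

/-- The same with dispatch: every phase has its own program. -/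
theorem phases_ind {ph : TS.Fn 1} {ps : List CP} {top : ℕ} {Sp : ℕ → ℕ → Tape → ℕ → Prop}
    (hlen : ps.length ≤ E.B + 1) (phl : ℕ → ℕ)
    (hph : ∀ (V : Orc) (t : Tape) (l : ℕ), l ≤ top → ph (inp E V t) (fun _ => l) = phl l)
    (hlt : ∀ l ≤ top, phl l < ps.length)
    (h : ∀ (l : ℕ) (hl : l ≤ top),
      (∀ l' < l, ∀ q ≤ E.B, ∀ t, TOk E t → Sp l' q t (val E (sel ph ps) l' q t)) →
      ∀ q ≤ E.B, ∀ t, TOk E t →
        (den E (orc E (sel ph ps) l) (ps[phl l]'(hlt l hl)) ⟨start l q, t⟩).tp = t ∧
        Sp l q t (min ((den E (orc E (sel ph ps) l) (ps[phl l]'(hlt l hl))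
          ⟨start l q, t⟩).reg 2) E.B)) :
    Restores E (sel ph ps) top ∧
      ∀ l ≤ top, ∀ q ≤ E.B, ∀ t, TOk E t → Sp l q t (val E (sel ph ps) l q t) := by
  refine levels_ind (fun l hl ih q hq t ht => ?_)
  have h1 := h l hl ih q hq t ht
  have h3 := hlt l hl
  rw [den_sel (n := phl l) h3 (by omega) (hph _ _ l hl)]
  exact h1

end Vale.Agent.P313.CT
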