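import Vale.Agent.P313.CT.Lang

/-!
The low level: counter programs with a shared tape, goto code, the stack machine.
-/

namespace Vale.Agent.P313.CT

/-- Structured counter programs. `ora o a`: register `o` gets the answer to the question in
register `a`; `wr a d`: the tape cell with address in register `a` gets the digit in register
`d`. -/
inductive LP where
  | skip
  | inc (r : ℕ)
  | dec (r : ℕ)
  | seq (p q : LP)
  | ifz (r : ℕ) (p q : LP)
  | loop (r : ℕ) (p : LP)
  | inL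
  | inR
  | ifin (f : InSym → Bool) (p q : LP)
  | ora (o a : ℕ)
  | wr (a d : ℕ)

/-- Low level states: registers, position of the input head, tape. -/
@[ext] structure LS where
  reg : ℕ → ℕ
  pos : ℕ
  tp : Tape

/-- Change one register. -/
def LS.set (s : LS) (r v : ℕ) : LS := ⟨Function.update s.reg r v, s.pos, s.tp⟩

@[simp] theorem LS.set_reg (s : LS) (r v : ℕ) : (s.set r v).reg = Function.update s.reg r v := rfl
@[simp] theorem LS.set_pos (s : LS) (r v : ℕ) : (s.set r v).pos = s.pos := rfl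
@[simp] theorem LS.set_tp (s : LS) (r v : ℕ) : (s.set r v).tp = s.tp := rfl

/-- Writing on the tape. -/
def wrT (E : Env) (a d : ℕ) (t : Tape) : Tape :=
  if a < E.L then Function.update t a (d % E.w) else t

/-- `RunL E V p s s' c`: program `p` started in `s` terminates in `s'` with cost at most `c`. -/
inductive RunL (E : Env) (V : Orc) : LP → LS → LS → ℕ → Prop
  | skip (s : LS) : RunL E V LP.skip s s 0
  | inc (r : ℕ) (s : LS) : RunL E V (LP.inc r) s (s.set r (s.reg r + 1)) 1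
  | dec (r : ℕ) (s : LS) : RunL E V (LP.dec r) s (s.set r (s.reg r - 1)) 1
  | seq {p q : LP} {s s1 s2 : LS} {c1 c2 : ℕ} :
      RunL E V p s s1 c1 → RunL E V q s1 s2 c2 → RunL E V (LP.seq p q) s s2 (c1 + c2)
  | ifz_z {r : ℕ} {p q : LP} {s s1 : LS} {c : ℕ} :
      s.reg r = 0 → RunL E V p s s1 c → RunL E V (LP.ifz r p q) s s1 (c + 1)
  | ifz_nz {r : ℕ} {p q : LP} {s s1 : LS} {c : ℕ} :
      s.reg r ≠ 0 → RunL E V q s s1 c → RunL E V (LP.ifz r p q) s s1 (c + 1)
  | loop_z {r : ℕ} {p : LP} {s : LS} :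
      s.reg r = 0 → RunL E V (LP.loop r p) s s 1
  | loop_nz {r : ℕ} {p : LP} {s s1 s2 : LS} {c1 c2 : ℕ} :
      s.reg r ≠ 0 → RunL E V p (s.set r (s.reg r - 1)) s1 c1 → RunL E V (LP.loop r p) s1 s2 c2 →
      RunL E V (LP.loop r p) s s2 (c1 + c2 + 1)
  | inL (s : LS) : RunL E V LP.inL s ⟨s.reg, moveIn E.word.length Dir.left s.pos, s.tp⟩ 1
  | inR (s : LS) : RunL E V LP.inR s ⟨s.reg, moveIn E.word.length Dir.right s.pos, s.tp⟩ 1
  | ifin_t {f : InSym → Bool} {p q : LP} {s s1 : LS} {c : ℕ} :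
      f (inSym E.word s.pos) = true → RunL E V p s s1 c → RunL E V (LP.ifin f p q) s s1 (c + 1)
  | ifin_f {f : InSym → Bool} {p q : LP} {s s1 : LS} {c : ℕ} :
      f (inSym E.word s.pos) = false → RunL E V q s s1 c → RunL E V (LP.ifin f p q) s s1 (c + 1)
  | ora (o a : ℕ) (s : LS) :
      RunL E V (LP.ora o a) s (s.set o ((inp E V s.tp).O (s.reg a)))
        ((inp E V s.tp).O (s.reg a) + 1)
  | wr (a d : ℕ) (s : LS) :
      RunL E V (LP.wr a d) s ⟨s.reg, s.pos, wrT E (s.reg a) (s.reg d) s.tp⟩ 1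
  | mono {p : LP} {s s1 : LS} {c c' : ℕ} : RunL E V p s s1 c → c ≤ c' → RunL E V p s s1 c'

/-- Instructions of goto code. -/
inductive LI where
  | inc (r : ℕ)
  /-- if register `r` is zero go to `l`, otherwise decrement it and go to the next instruction -/
  | jzdec (r l : ℕ)
  | inL
  | inR
  /-- if the scanned input symbol satisfies `f` go to the next instruction, otherwise go to `l` -/
  | jin (f : InSym → Bool) (l : ℕ)
  | jmp (l : ℕ)
  | ora (o a : ℕ)
  | wr (a d : ℕ)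

/-- One step of goto code, the oracle being answered at once. `none` if the program counter is
outside. -/
def stepL (code : List LI) (E : Env) (V : Orc) (c : ℕ × LS) : Option (ℕ × LS) :=
  match code[c.1]? with
  | none => none
  | some (LI.inc r) => some (c.1 + 1, c.2.set r (c.2.reg r + 1))
  | some (LI.jzdec r l) =>
    if c.2.reg r = 0 then some (l, c.2) else some (c.1 + 1, c.2.set r (c.2.reg r - 1))
  | some LI.inL => some (c.1 + 1, ⟨c.2.reg, moveIn E.word.length Dir.left c.2.pos, c.2.tp⟩)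
  | some LI.inR => some (c.1 + 1, ⟨c.2.reg, moveIn E.word.length Dir.right c.2.pos, c.2.tp⟩)
  | some (LI.jin f l) =>
    if f (inSym E.word c.2.pos) = true then some (c.1 + 1, c.2) else some (l, c.2)
  | some (LI.jmp l) => some (l, c.2)
  | some (LI.ora o a) => some (c.1 + 1, c.2.set o ((inp E V c.2.tp).O (c.2.reg a)))
  | some (LI.wr a d) =>
    some (c.1 + 1, ⟨c.2.reg, c.2.pos, wrT E (c.2.reg a) (c.2.reg d) c.2.tp⟩)

/-- `StepsL code E V n c c'`: goto code goes from `c` to `c'` in exactly `n` steps. -/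
inductive StepsL (code : List LI) (E : Env) (V : Orc) : ℕ → ℕ × LS → ℕ × LS → Prop
  | refl (c : ℕ × LS) : StepsL code E V 0 c c
  | head {n : ℕ} {c c1 c2 : ℕ × LS} :
      stepL code E V c = some c1 → StepsL code E V n c1 c2 → StepsL code E V (n + 1) c c2

/-- The code uses only registers below `m`. -/
def LI.Rb (m : ℕ) : LI → Prop
  | .inc r => r < m
  | .jzdec r _ => r < m
  | .ora o a => o < m ∧ a < m
  | .wr a d => a < m ∧ d < m
  | _ => True

/-- E1: the meaning of a program is realized by goto code which starts at address `0` and ends at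
address `code.length`. -/
def Spec_E1 : Prop :=
  ∀ (p : CP), p.Ok → ∃ (code : List LI) (m c : ℕ), 3 ≤ m ∧ (∀ i ∈ code, i.Rb m) ∧
    ∀ (E : Env) (V : Orc) (l q : ℕ) (t : Tape), l ≤ E.B → q ≤ E.B →
      ∃ n reg', n ≤ (E.word.length + E.B + 2) ^ c ∧
        reg' 2 = (den E V p ⟨start l q, t⟩).reg 2 ∧
        StepsL code E V n (0, ⟨start l q, 0, t⟩)
          (code.length, ⟨reg', 0, (den E V p ⟨start l q, t⟩).tp⟩)

/-- Frames of the stack machine. -/
structure Fr where
  pc : ℕ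
  reg : ℕ → ℕ
  pos : ℕ
  lev : ℕ

/-- Configurations of the stack machine: the frames (top first) and the tape. -/
structure SC where
  fr : List Fr
  tp : Tape

/-- A new frame. -/
def newFr (l q : ℕ) : Fr := ⟨0, start l q, 0, l⟩

/-- Change one register of a frame and go to the next instruction. -/
def Fr.upd (f : Fr) (o v : ℕ) : Fr := ⟨f.pc + 1, Function.update f.reg o v, f.pos, f.lev⟩

/-- The frame below receives the value `v`. -/
def recv (code : List LI) (v : ℕ) (g : Fr) : Fr :=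
  match code[g.pc]? with
  | some (LI.ora o _) => g.upd o v
  | _ => g

/-- One step of the stack machine. It does not change a configuration whose only frame has
finished. -/
def stepS (code : List LI) (E : Env) (c : SC) : SC :=
  match c.fr with
  | [] => c
  | f :: rest =>
    match code[f.pc]? with
    | none =>
      match rest with
      | [] => c
      | g :: rest' => ⟨recv code (min (f.reg 2) E.B) g :: rest', c.tp⟩
    | some (LI.inc r) => ⟨f.upd r (f.reg r + 1) :: rest, c.tp⟩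
    | some (LI.jzdec r l) =>
      if f.reg r = 0 then ⟨⟨l, f.reg, f.pos, f.lev⟩ :: rest, c.tp⟩
      else ⟨f.upd r (f.reg r - 1) :: rest, c.tp⟩
    | some LI.inL =>
      ⟨⟨f.pc + 1, f.reg, moveIn E.word.length Dir.left f.pos, f.lev⟩ :: rest, c.tp⟩
    | some LI.inR =>
      ⟨⟨f.pc + 1, f.reg, moveIn E.word.length Dir.right f.pos, f.lev⟩ :: rest, c.tp⟩
    | some (LI.jin g l) =>
      if g (inSym E.word f.pos) = true then ⟨⟨f.pc + 1, f.reg, f.pos, f.lev⟩ :: rest, c.tp⟩
      else ⟨⟨l, f.reg, f.pos, f.lev⟩ :: rest, c.tp⟩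
    | some (LI.jmp l) => ⟨⟨l, f.reg, f.pos, f.lev⟩ :: rest, c.tp⟩
    | some (LI.ora o a) =>
      if f.reg a ≠ 0 ∧ f.reg a % 3 = 2 ∧ (Nat.unpair (f.reg a / 3)).1 < f.lev then
        ⟨newFr (Nat.unpair (f.reg a / 3)).1 (min (Nat.unpair (f.reg a / 3)).2 E.B) :: f :: rest,
          c.tp⟩
      else ⟨f.upd o ((inp E (fun _ _ => 0) c.tp).O (f.reg a)) :: rest, c.tp⟩
    | some (LI.wr a d) =>
      ⟨⟨f.pc + 1, f.reg, f.pos, f.lev⟩ :: rest, wrT E (f.reg a) (f.reg d) c.tp⟩

/-- Bounded frames. -/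
def Fr.Bd (m P : ℕ) (f : Fr) : Prop :=
  f.pc < P ∧ (∀ i, f.reg i < P) ∧ (∀ i, m ≤ i → f.reg i = 0) ∧ f.pos < P ∧ f.lev < P

/-- Bounded configurations: at most `D` frames, bounded, and only the top frame can be at level
`0` (all other frames wait for an answer). -/
def SC.Bd (E : Env) (m P D : ℕ) (c : SC) : Prop :=
  TOk E c.tp ∧ c.fr ≠ [] ∧ c.fr.length ≤ D ∧ (∀ f ∈ c.fr, f.Bd m P) ∧
    ∀ f ∈ c.fr.tail, 0 < f.lev

/-- E2: the stack machine computes the values; all configurations on the way are bounded. -/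
def Spec_E2 : Prop :=
  ∀ (p : CP) (code : List LI) (m c : ℕ), 3 ≤ m → (∀ i ∈ code, i.Rb m) →
    (∀ (E : Env) (V : Orc) (l q : ℕ) (t : Tape), l ≤ E.B → q ≤ E.B →
      ∃ n reg', n ≤ (E.word.length + E.B + 2) ^ c ∧
        reg' 2 = (den E V p ⟨start l q, t⟩).reg 2 ∧
        StepsL code E V n (0, ⟨start l q, 0, t⟩)
          (code.length, ⟨reg', 0, (den E V p ⟨start l q, t⟩).tp⟩)) →
    ∃ d : ℕ, ∀ (E : Env) (top q : ℕ), 1 ≤ E.w → top ≤ E.B → q ≤ E.B → Restores E p top →
      ∃ (N : ℕ) (f : Fr), N ≤ (E.word.length + E.B + 2) ^ (d * (top + 1)) ∧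
        (∀ j, SC.Bd E m ((E.word.length + E.B + 2) ^ d) (top + 1)
          ((stepS code E)^[j] ⟨[newFr top q], fun _ => 0⟩)) ∧
        (∀ j, N ≤ j → (stepS code E)^[j] ⟨[newFr top q], fun _ => 0⟩ = ⟨[f], fun _ => 0⟩) ∧
        min (f.reg 2) E.B = val E p top q (fun _ => 0)

/-- E3: the stack machine is simulated in `LF`. -/
def Spec_E3 : Prop :=
  ∀ (code : List LI) (m d : ℕ), 3 ≤ m → (∀ i ∈ code, i.Rb m) →
    ∃ c : ℕ, ∀ (k : ℕ) (e : EnvC k) (top q0 W : P313.Fn k), e.Ok →
    P313.LF top → P313.LF q0 → P313.LF W →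
    ∃ G : P313.Fn k, P313.LF G ∧ (∀ x a, G x a ≤ e.B x a) ∧ ∀ x a, 1 ≤ e.w x a →
      top x a ≤ e.B x a → q0 x a ≤ e.B x a →
      e.w x a ^ e.L x a * (x.length + e.B x a + 2) ^ (c * (top x a + 1)) ≤ W x a →
      ∀ (N : ℕ) (f : Fr), N ≤ (x.length + e.B x a + 2) ^ (d * (top x a + 1)) →
        (∀ j, SC.Bd (e.at x a) m ((x.length + e.B x a + 2) ^ d) (top x a + 1)
          ((stepS code (e.at x a))^[j] ⟨[newFr (top x a) (q0 x a)], fun _ => 0⟩)) →
        (∀ j, N ≤ j → (stepS code (e.at x a))^[j] ⟨[newFr (top x a) (q0 x a)], fun _ => 0⟩ =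
          ⟨[f], fun _ => 0⟩) →
        G x a = min (f.reg 2) (e.B x a)

/-- The engine from its parts. -/
theorem engine_of (h1 : Spec_E1) (h2 : Spec_E2) (h3 : Spec_E3) : Spec_ENGINE := by
  intro p hp
  obtain ⟨code, m, c, hm, hcode, hrun⟩ := h1 p hp
  obtain ⟨d, h2⟩ := h2 p code m c hm hcode hrun
  obtain ⟨c', h3⟩ := h3 code m d hm hcode
  refine ⟨c', fun k e top q0 W he htop hq0 hW => ?_⟩
  obtain ⟨G, hG, hGB, h⟩ := h3 k e top q0 W he htop hq0 hW
  refine ⟨G, hG, hGB, fun x a h4 h5 h6 h7 h8 => ?_⟩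
  obtain ⟨N, f, hN, hbd, hfin, hval⟩ := h2 (e.at x a) (top x a) (q0 x a) h4 h5 h6 h8
  rw [h x a h4 h5 h6 h7 N f hN hbd hfin]
  exact hval

end Vale.Agent.P313.CT
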