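import Mathlib

/-!
The mixing map `R_a` and its inverse on numeric tokens `(x, z, tape)`. The digits of `z` and the
labels of the levels below `a` are shifted by the vector coded in the first 62 cells of block `a`;
then the hash value of the digit string is added to these 62 cells.
-/

namespace Vale.Agent.P313.MX

open Finset

/-! ### Sums of digits -/

theorem dsum_lt {q : ℕ} {d : ℕ → ℕ} (hd : ∀ k, d k < q) (c : ℕ) :
    ∑ k ∈ range c, d k * q ^ k < q ^ c := by
  induction c with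
  | zero => simp
  | succ c ih =>
    rw [sum_range_succ, pow_succ]
    have h2 := hd c
    calc ∑ k ∈ range c, d k * q ^ k + d c * q ^ c < q ^ c + d c * q ^ c := by omega
      _ = (d c + 1) * q ^ c := by ring
      _ ≤ q * q ^ c := Nat.mul_le_mul_right _ h2
      _ = q ^ c * q := mul_comm _ _

theorem dsum_digit {q : ℕ} {d : ℕ → ℕ} (hd : ∀ k, d k < q) {c j : ℕ} (hj : j < c) :
    (∑ k ∈ range c, d k * q ^ k) / q ^ j % q = d j := by
  have hq : 0 < q := (Nat.zero_le _).trans_lt (hd 0)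
  have hqj : 0 < q ^ j := Nat.pow_pos hq
  have h1 : ∑ k ∈ range c, d k * q ^ k = ∑ k ∈ range j, d k * q ^ k +
      q ^ j * (d j + q * ∑ k ∈ range (c - j - 1), d (j + 1 + k) * q ^ k) := by
    have hc : c = j + 1 + (c - j - 1) := by omega
    conv_lhs => rw [hc, sum_range_add, sum_range_succ]
    rw [mul_add, add_assoc, mul_sum, mul_sum]
    congr 1
    congr 1
    · ring
    · refine sum_congr rfl fun k _ => ?_
      rw [pow_add, pow_succ]
      ring
  rw [h1, Nat.add_mul_div_left _ _ hqj, Nat.div_eq_of_lt (dsum_lt hd j), zero_add,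
    Nat.add_mul_mod_self_left, Nat.mod_eq_of_lt (hd j)]

theorem dsum_self {q : ℕ} (hq : 0 < q) (c : ℕ) {z : ℕ} (hz : z < q ^ c) :
    ∑ k ∈ range c, (z / q ^ k % q) * q ^ k = z := by
  induction c generalizing z with
  | zero =>
    rw [pow_zero] at hz
    simp only [range_zero, sum_empty]
    omega
  | succ c ih =>
    have h1 : z / q < q ^ c := by
      rw [Nat.div_lt_iff_lt_mul hq]
      rwa [← pow_succ]
    have h2 := ih h1
    rw [sum_range_succ']
    have h3 : ∑ k ∈ range c, z / q ^ (k + 1) % q * q ^ (k + 1) = q * (z / q) := by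
      conv_rhs => rw [← h2, mul_sum]
      refine sum_congr rfl fun k _ => ?_
      rw [Nat.div_div_eq_div_mul, pow_succ, mul_comm (q ^ k) q]
      ring
    rw [h3]
    simp only [pow_zero, Nat.div_one, mul_one]
    have := Nat.div_add_mod z q
    omega

theorem add_sub_mod {q x h : ℕ} (hx : x < q) (hh : h < q) : ((x + h) % q + (q - h)) % q = x := by
  rcases lt_or_ge (x + h) q with h1 | h1
  · rw [Nat.mod_eq_of_lt h1, show x + h + (q - h) = x + q by omega, Nat.add_mod_right,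
      Nat.mod_eq_of_lt hx]
  · rw [Nat.mod_eq_sub_mod h1, Nat.mod_eq_of_lt (show x + h - q < q by omega),
      show x + h - q + (q - h) = x by omega, Nat.mod_eq_of_lt hx]

theorem sub_add_mod {q x h : ℕ} (hx : x < q) (hh : h < q) : ((x + (q - h)) % q + h) % q = x := by
  rcases lt_or_ge (x + (q - h)) q with h1 | h1
  · rw [Nat.mod_eq_of_lt h1, show x + (q - h) + h = x + q by omega, Nat.add_mod_right,
      Nat.mod_eq_of_lt hx]
  · rw [Nat.mod_eq_sub_mod h1, Nat.mod_eq_of_lt (show x + (q - h) - q < q by omega),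
      show x + (q - h) - q + h = x by omega, Nat.mod_eq_of_lt hx]

/-! ### Definitions -/

/-- Digit `k` of the token `(x, z)` with `c` digits of `z` and the labels of `a` levels. -/
def dgt (q cm nd c a x z : ℕ) (t : ℕ → ℕ) (k : ℕ) : ℕ :=
  if k < cm then (if k < c then z / q ^ k % q else 0)
  else if k < cm + nd then x / q ^ (k - cm) % q
  else if k < cm + nd + 310 * a then t (k - (cm + nd)) else 0

/-- The shift vector coded in block `a`. -/
def bvn (q a : ℕ) (t : ℕ → ℕ) (k : ℕ) : ℕ :=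
  (∑ j ∈ range 31, t (310 * a + (2 * j + 1)) * t (310 * a + 2 * j) ^ k) % q

/-- The negative of the shift vector. -/
def nbv (q a : ℕ) (t : ℕ → ℕ) (k : ℕ) : ℕ := q - bvn q a t k

/-- The value of a digit string at `y`. -/
def evn (N : ℕ) (d : ℕ → ℕ) (y : ℕ) : ℕ := ∑ k ∈ range N, d k * y ^ k

/-- Digit `o` of the hash value of the digit string `d`, the seed being in block `a`. -/
def hsn (q N a : ℕ) (t : ℕ → ℕ) (d : ℕ → ℕ) (o : ℕ) : ℕ :=
  (t (310 * a + (62 + 4 * o + 1)) * evn N d (t (310 * a + (62 + 4 * o))) +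
    t (310 * a + (62 + 4 * o + 3)) * evn N d (t (310 * a + (62 + 4 * o + 2)))) % q

/-- Shift of the digits of `z`. -/
def shz (q c : ℕ) (b : ℕ → ℕ) (z : ℕ) : ℕ := ∑ k ∈ range c, ((z / q ^ k + b k) % q) * q ^ k

/-- Shift of the first `m` cells. -/
def sht (q m : ℕ) (b : ℕ → ℕ) (t : ℕ → ℕ) (j : ℕ) : ℕ := if j < m then (t j + b j) % q else t j

/-- Adding `h` to the first 62 cells of block `a`. -/
def adh (q a : ℕ) (h : ℕ → ℕ) (t : ℕ → ℕ) (j : ℕ) : ℕ :=
  if 310 * a ≤ j ∧ j < 310 * a + 62 then (t j + h (j - 310 * a)) % q else t j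

/-- Hash value of a token. -/
def hst (q cm nd c a x z : ℕ) (t : ℕ → ℕ) (o : ℕ) : ℕ :=
  hsn q (cm + nd + 310 * a) a t (dgt q cm nd c a x z t) o

/-- The tape after the shift. -/
def mt1 (q cm nd a : ℕ) (t : ℕ → ℕ) : ℕ → ℕ :=
  sht q (310 * a) (fun j => bvn q a t (cm + nd + j)) t

/-- `z` after the shift. -/
def mz1 (q c a z : ℕ) (t : ℕ → ℕ) : ℕ := shz q c (bvn q a t) z

/-- The tape after subtracting the hash value. -/
def ut1 (q cm nd c a x z : ℕ) (t : ℕ → ℕ) : ℕ → ℕ :=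
  adh q a (fun o => q - hst q cm nd c a x z t o) t

/-- `R_a`. -/
def mixN (q cm nd c a x z : ℕ) (t : ℕ → ℕ) : ℕ × (ℕ → ℕ) :=
  (mz1 q c a z t, adh q a (hst q cm nd c a x (mz1 q c a z t) (mt1 q cm nd a t)) (mt1 q cm nd a t))

/-- The inverse of `R_a`. -/
def unmixN (q cm nd c a x z : ℕ) (t : ℕ → ℕ) : ℕ × (ℕ → ℕ) :=
  (shz q c (nbv q a (ut1 q cm nd c a x z t)) z,
    sht q (310 * a) (fun j => nbv q a (ut1 q cm nd c a x z t) (cm + nd + j))
      (ut1 q cm nd c a x z t))

/-! ### Bounds and locality -/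

variable {q : ℕ}

theorem bvn_lt (hq : 0 < q) (a : ℕ) (t : ℕ → ℕ) (k : ℕ) : bvn q a t k < q := Nat.mod_lt _ hq

theorem hsn_lt (hq : 0 < q) (N a : ℕ) (t d : ℕ → ℕ) (o : ℕ) : hsn q N a t d o < q :=
  Nat.mod_lt _ hq

theorem hst_lt (hq : 0 < q) (cm nd c a x z : ℕ) (t : ℕ → ℕ) (o : ℕ) :
    hst q cm nd c a x z t o < q := Nat.mod_lt _ hq

theorem shz_lt (hq : 0 < q) (c : ℕ) (b : ℕ → ℕ) (z : ℕ) : shz q c b z < q ^ c :=
  dsum_lt (fun _ => Nat.mod_lt _ hq) c

theorem shz_digit (hq : 0 < q) {c k : ℕ} (b : ℕ → ℕ) (z : ℕ) (hk : k < c) :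
    shz q c b z / q ^ k % q = (z / q ^ k + b k) % q :=
  dsum_digit (fun _ => Nat.mod_lt _ hq) hk

theorem shz_shz (hq : 0 < q) {c z : ℕ} (hz : z < q ^ c) (b b' : ℕ → ℕ)
    (h : ∀ k < c, ((z / q ^ k % q + b k) % q + b' k) % q = z / q ^ k % q) :
    shz q c b' (shz q c b z) = z := by
  conv_rhs => rw [← dsum_self hq c hz]
  refine sum_congr rfl fun k hk => ?_
  have hk' : k < c := mem_range.1 hk
  congr 1
  rw [← h k hk', ← Nat.mod_add_mod (shz q c b z / q ^ k), shz_digit hq b z hk',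
    ← Nat.mod_add_mod (z / q ^ k)]

theorem bvn_congr {a : ℕ} {t t' : ℕ → ℕ} (h : ∀ i < 62, t (310 * a + i) = t' (310 * a + i))
    (k : ℕ) : bvn q a t k = bvn q a t' k := by
  have e : ∑ j ∈ range 31, t (310 * a + (2 * j + 1)) * t (310 * a + 2 * j) ^ k =
      ∑ j ∈ range 31, t' (310 * a + (2 * j + 1)) * t' (310 * a + 2 * j) ^ k := by
    refine sum_congr rfl fun j hj => ?_
    have hj' := mem_range.1 hj
    rw [h (2 * j + 1) (by omega), h (2 * j) (by omega)]
  unfold bvn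
  rw [e]

theorem nbv_congr {a : ℕ} {t t' : ℕ → ℕ} (h : ∀ i < 62, t (310 * a + i) = t' (310 * a + i))
    (k : ℕ) : nbv q a t k = nbv q a t' k := by
  unfold nbv
  rw [bvn_congr h]

theorem dgt_congr {cm nd c a x z : ℕ} {t t' : ℕ → ℕ} (h : ∀ i < 310 * a, t i = t' i) (k : ℕ) :
    dgt q cm nd c a x z t k = dgt q cm nd c a x z t' k := by
  unfold dgt
  split_ifs with h1 h2 h3 h4
  · rfl
  · rfl
  · rfl
  · exact h _ (by omega)
  · rfl

theorem hst_congr {cm nd c a x z : ℕ} {t t' : ℕ → ℕ}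
    (h : ∀ i, (i < 310 * a ∨ 310 * a + 62 ≤ i) → i < 310 * (a + 1) → t i = t' i) {o : ℕ}
    (ho : o < 62) : hst q cm nd c a x z t o = hst q cm nd c a x z t' o := by
  unfold hst
  have h1 : dgt q cm nd c a x z t = dgt q cm nd c a x z t' :=
    funext fun k => dgt_congr (fun i hi => h i (Or.inl hi) (by omega)) k
  rw [h1]
  unfold hsn
  rw [h (310 * a + (62 + 4 * o + 1)) (by omega) (by omega),
    h (310 * a + (62 + 4 * o)) (by omega) (by omega),
    h (310 * a + (62 + 4 * o + 3)) (by omega) (by omega),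
    h (310 * a + (62 + 4 * o + 2)) (by omega) (by omega)]

theorem sht_of_le {m j : ℕ} (b t : ℕ → ℕ) (h : m ≤ j) : sht q m b t j = t j := by
  unfold sht
  rw [if_neg (by omega)]

theorem adh_of_not {a j : ℕ} (h t : ℕ → ℕ) (hj : j < 310 * a ∨ 310 * a + 62 ≤ j) :
    adh q a h t j = t j := by
  unfold adh
  rw [if_neg (by omega)]

/-- Cells above block `a` are not touched. -/
theorem mixN_above {cm nd c a x z : ℕ} {t : ℕ → ℕ} {j : ℕ} (hj : 310 * a + 62 ≤ j) :
    (mixN q cm nd c a x z t).2 j = t j := by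
  unfold mixN
  simp only
  rw [adh_of_not _ _ (Or.inr hj)]
  unfold mt1
  rw [sht_of_le _ _ (by omega)]

theorem unmixN_above {cm nd c a x z : ℕ} {t : ℕ → ℕ} {j : ℕ} (hj : 310 * a + 62 ≤ j) :
    (unmixN q cm nd c a x z t).2 j = t j := by
  unfold unmixN
  simp only
  rw [sht_of_le _ _ (by omega)]
  unfold ut1
  rw [adh_of_not _ _ (Or.inr hj)]

theorem mixN_z_lt (hq : 0 < q) (cm nd c a x z : ℕ) (t : ℕ → ℕ) :
    (mixN q cm nd c a x z t).1 < q ^ c := shz_lt hq _ _ _

theorem unmixN_z_lt (hq : 0 < q) (cm nd c a x z : ℕ) (t : ℕ → ℕ) :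
    (unmixN q cm nd c a x z t).1 < q ^ c := shz_lt hq _ _ _

theorem sht_lt (hq : 0 < q) {m L : ℕ} {b t : ℕ → ℕ} (ht : ∀ j < L, t j < q) {j : ℕ} (hj : j < L) :
    sht q m b t j < q := by
  unfold sht
  split_ifs
  · exact Nat.mod_lt _ hq
  · exact ht j hj

theorem adh_lt (hq : 0 < q) {a L : ℕ} {h t : ℕ → ℕ} (ht : ∀ j < L, t j < q) {j : ℕ} (hj : j < L) :
    adh q a h t j < q := by
  unfold adh
  split_ifs
  · exact Nat.mod_lt _ hq
  · exact ht j hj

theorem mt1_lt (hq : 0 < q) {cm nd a L : ℕ} {t : ℕ → ℕ} (ht : ∀ j < L, t j < q) {j : ℕ}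
    (hj : j < L) : mt1 q cm nd a t j < q := by
  unfold mt1
  exact sht_lt hq ht hj

theorem ut1_lt (hq : 0 < q) {cm nd c a x z L : ℕ} {t : ℕ → ℕ} (ht : ∀ j < L, t j < q) {j : ℕ}
    (hj : j < L) : ut1 q cm nd c a x z t j < q := by
  unfold ut1
  exact adh_lt hq ht hj

/-- Valid digits remain valid. -/
theorem mixN_lt (hq : 0 < q) {cm nd c a x z L : ℕ} {t : ℕ → ℕ} (ht : ∀ j < L, t j < q) {j : ℕ}
    (hj : j < L) : (mixN q cm nd c a x z t).2 j < q := by
  unfold mixN
  simp only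
  exact adh_lt hq (fun j hj => mt1_lt hq ht hj) hj

theorem unmixN_lt (hq : 0 < q) {cm nd c a x z L : ℕ} {t : ℕ → ℕ} (ht : ∀ j < L, t j < q) {j : ℕ}
    (hj : j < L) : (unmixN q cm nd c a x z t).2 j < q := by
  unfold unmixN
  simp only
  exact sht_lt hq (fun j hj => ut1_lt hq ht hj) hj

theorem adh_adh {a : ℕ} {h h' t : ℕ → ℕ} (hh : ∀ o < 62, ((t (310 * a + o) + h o) % q + h' o) % q =
    t (310 * a + o)) : adh q a h' (adh q a h t) = t := by
  funext j
  unfold adh
  by_cases hj : 310 * a ≤ j ∧ j < 310 * a + 62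
  · simp only [if_pos hj]
    have h1 := hh (j - 310 * a) (by omega)
    have h2 : 310 * a + (j - 310 * a) = j := by omega
    rw [h2] at h1
    exact h1
  · simp only [if_neg hj]

theorem sht_sht {m : ℕ} {b b' t : ℕ → ℕ} (hh : ∀ j < m, ((t j + b j) % q + b' j) % q = t j) :
    sht q m b' (sht q m b t) = t := by
  funext j
  unfold sht
  by_cases hj : j < m
  · simp only [if_pos hj]
    exact hh j hj
  · simp only [if_neg hj]

theorem bvn_mt1 (cm nd a : ℕ) (t : ℕ → ℕ) (k : ℕ) : bvn q a (mt1 q cm nd a t) k = bvn q a t k := by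
  apply bvn_congr
  intro i _
  unfold mt1
  rw [sht_of_le _ _ (by omega)]

theorem unmix_mix (hq : 0 < q) {cm nd c a x z : ℕ} {t : ℕ → ℕ} (hz : z < q ^ c)
    (ht : ∀ j < 310 * (a + 1), t j < q) :
    unmixN q cm nd c a x (mixN q cm nd c a x z t).1 (mixN q cm nd c a x z t).2 = (z, t) := by
  have h1 : ut1 q cm nd c a x (mixN q cm nd c a x z t).1 (mixN q cm nd c a x z t).2 =
      mt1 q cm nd a t := by
    unfold mixN ut1
    simp only
    apply adh_adh
    intro o ho
    have h2 : hst q cm nd c a x (mz1 q c a z t)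
        (adh q a (hst q cm nd c a x (mz1 q c a z t) (mt1 q cm nd a t)) (mt1 q cm nd a t)) o =
        hst q cm nd c a x (mz1 q c a z t) (mt1 q cm nd a t) o := by
      apply hst_congr _ ho
      intro i hi _
      exact adh_of_not _ _ hi
    rw [h2]
    exact add_sub_mod (mt1_lt hq ht (by omega)) (hst_lt hq _ _ _ _ _ _ _ _)
  unfold unmixN
  rw [h1]
  have h3 : nbv q a (mt1 q cm nd a t) = nbv q a t := by
    funext k
    unfold nbv
    rw [bvn_mt1]
  rw [h3]
  refine Prod.ext ?_ ?_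
  · simp only
    unfold mixN mz1
    simp only
    apply shz_shz hq hz
    intro k _
    exact add_sub_mod (Nat.mod_lt _ hq) (bvn_lt hq _ _ _)
  · simp only
    unfold mt1
    apply sht_sht
    intro j hj
    exact add_sub_mod (ht j (by omega)) (bvn_lt hq _ _ _)

theorem mix_unmix (hq : 0 < q) {cm nd c a x z : ℕ} {t : ℕ → ℕ} (hz : z < q ^ c)
    (ht : ∀ j < 310 * (a + 1), t j < q) :
    mixN q cm nd c a x (unmixN q cm nd c a x z t).1 (unmixN q cm nd c a x z t).2 = (z, t) := by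
  have h3 : bvn q a (unmixN q cm nd c a x z t).2 = bvn q a (ut1 q cm nd c a x z t) := by
    funext k
    apply bvn_congr
    intro i _
    unfold unmixN
    simp only
    rw [sht_of_le _ _ (by omega)]
  have h4 : mz1 q c a (unmixN q cm nd c a x z t).1 (unmixN q cm nd c a x z t).2 = z := by
    unfold mz1
    rw [h3]
    unfold unmixN
    simp only
    apply shz_shz hq hz
    intro k _
    exact sub_add_mod (Nat.mod_lt _ hq) (bvn_lt hq _ _ _)
  have h5 : mt1 q cm nd a (unmixN q cm nd c a x z t).2 = ut1 q cm nd c a x z t := by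
    unfold mt1
    rw [h3]
    unfold unmixN
    simp only
    apply sht_sht
    intro j hj
    exact sub_add_mod (ut1_lt hq ht (by omega)) (bvn_lt hq _ _ _)
  unfold mixN
  rw [h4, h5]
  refine Prod.ext rfl ?_
  simp only
  unfold ut1
  apply adh_adh
  intro o ho
  have h2 : hst q cm nd c a x z (adh q a (fun o => q - hst q cm nd c a x z t o) t) o =
      hst q cm nd c a x z t o := by
    apply hst_congr _ ho
    intro i hi _
    exact adh_of_not _ _ hi
  rw [h2]
  exact sub_add_mod (ht _ (by omega)) (hst_lt hq _ _ _ _ _ _ _ _)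

end Vale.Agent.P313.MX
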