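import Vale.Agent.P313.CT.Lib
import Vale.Agent.P313.CT.MixN

/-!
Programs for the mixing map `R_a` and its inverse.

Registers: `3` = `x`, `4` = `z`, `6` = `a`, `15` = level of the data; registers from `20` are
scratch. Static digits: `1` = `q`, `11` = `cm`, `12` = `nd`.
-/

namespace Vale.Agent.P313.CT

open Finset MX

variable {k : ℕ}

/-! ### Functions in `TS.LF` -/

/-- The prime `q`. -/
def qI (I : TS.Inp) : ℕ := stat I 1 - 1 + 1

theorem qI_pos (I : TS.Inp) : 0 < qI I := Nat.succ_pos _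

theorem lf_qI : TS.LF (fun I _ => qI I : TS.Fn k) :=
  ((lf_stat (TS.LF.const 1)).sub (TS.LF.const 1)).add (TS.LF.const 1)

theorem lf_smr {n : TS.Fn k} {g : TS.Inp → (Fin k → ℕ) → ℕ → ℕ} (hn : TS.LF n)
    (hg : TS.LF (fun x b => g x (Fin.tail b) (b 0) : TS.Fn (k + 1))) :
    TS.LF (fun x a => ∑ i ∈ range (n x a), g x a i) :=
  (TS.LF.sum hg hn).congr fun x a => by simp only [Fin.tail_cons, Fin.cons_zero]

theorem iter_pm (m u : ℕ) : ∀ i, (fun r => r * u % (m + 1))^[i] (1 % (m + 1)) =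
    u ^ i % (m + 1) := by
  intro i
  induction i with
  | zero => simp
  | succ i ih => rw [Function.iterate_succ_apply', ih, pow_succ, Nat.mod_mul_mod]

/-- Powers modulo a positive number. -/
theorem lf_pm {f g h : TS.Fn k} (hf : TS.LF f) (hg : TS.LF g) (hh : TS.LF h) :
    TS.LF (fun I a => f I a ^ g I a % (h I a + 1)) := by
  have h1 := TS.LF.iterate (k := k)
    (f := fun I b => b 0 * f I (Fin.tail b) % (h I (Fin.tail b) + 1))
    (g := fun I a => 1 % (h I a + 1)) (n := g)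
    (((TS.LF.proj 0).mul hf.weak).mod (hh.weak.add (TS.LF.const 1)))
    ((TS.LF.const 1).mod (hh.add (TS.LF.const 1))) hg (fun I a => h I a + 1)
    (hh.pb.add (TS.PB.const 1)) (fun I a i _ => by
      simp only [Fin.tail_cons, Fin.cons_zero]
      rw [iter_pm]
      exact (Nat.mod_lt _ (Nat.succ_pos _)).le)
  refine h1.congr (fun I a => ?_)
  simp only [Fin.tail_cons, Fin.cons_zero]
  rw [iter_pm]

theorem lf_pmq {f g : TS.Fn k} (hf : TS.LF f) (hg : TS.LF g) :
    TS.LF (fun I a => f I a ^ g I a % qI I) :=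
  lf_pm hf hg ((lf_stat (TS.LF.const 1)).sub (TS.LF.const 1))

theorem sum_mul_mod {n m : ℕ} {f g g' : ℕ → ℕ} (h : ∀ i, g' i % m = g i % m) :
    (∑ i ∈ range n, f i * g' i) % m = (∑ i ∈ range n, f i * g i) % m := by
  rw [sum_nat_mod, sum_nat_mod (range n) m (fun i => f i * g i)]
  congr 1
  refine sum_congr rfl fun i _ => ?_
  rw [Nat.mul_mod, h i, ← Nat.mul_mod]

theorem lf_bvn {fa fk : TS.Fn k} (ha : TS.LF fa) (hk : TS.LF fk) :
    TS.LF (fun I a => bvn (qI I) (fa I a) (cell I) (fk I a)) := by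
  have h0 : TS.LF (fun I b => 310 * fa I (Fin.tail b) : TS.Fn (k + 1)) :=
    (TS.LF.const 310).mul ha.weak
  have h1 : TS.LF (fun I a => (∑ j ∈ range 31, cell I (310 * fa I a + (2 * j + 1)) *
      (cell I (310 * fa I a + 2 * j) ^ fk I a % qI I)) % qI I) := by
    refine (lf_smr (n := fun _ _ => 31) (TS.LF.const 31) ?_).mod lf_qI
    exact (lf_cell (h0.add (((TS.LF.const 2).mul (TS.LF.proj 0)).add (TS.LF.const 1)))).mul
      (lf_pmq (lf_cell (h0.add ((TS.LF.const 2).mul (TS.LF.proj 0)))) hk.weak)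
  refine h1.congr fun I a => ?_
  unfold bvn
  exact sum_mul_mod fun i => Nat.mod_mod _ _

theorem lf_nbv {fa fk : TS.Fn k} (ha : TS.LF fa) (hk : TS.LF fk) :
    TS.LF (fun I a => nbv (qI I) (fa I a) (cell I) (fk I a)) := by
  unfold nbv
  exact lf_qI.sub (lf_bvn ha hk)

theorem lf_evn {fN fy : TS.Fn k} {d : TS.Inp → (Fin k → ℕ) → ℕ → ℕ} (hN : TS.LF fN)
    (hd : TS.LF (fun I b => d I (Fin.tail b) (b 0) : TS.Fn (k + 1))) (hy : TS.LF fy) :
    TS.LF (fun I a => evn (fN I a) (d I a) (fy I a) % qI I) := by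
  have h1 : TS.LF (fun I a => (∑ j ∈ range (fN I a), d I a j * (fy I a ^ j % qI I)) % qI I) :=
    (lf_smr hN (hd.mul (lf_pmq hy.weak (TS.LF.proj 0)))).mod lf_qI
  refine h1.congr fun I a => ?_
  unfold evn
  exact sum_mul_mod fun i => Nat.mod_mod _ _

theorem lf_dgt {fc fa fx fz fk : TS.Fn k} (hc : TS.LF fc) (ha : TS.LF fa) (hx : TS.LF fx)
    (hz : TS.LF fz) (hk : TS.LF fk) :
    TS.LF (fun I a => MX.dgt (qI I) (stat I 11) (stat I 12) (fc I a) (fa I a) (fx I a) (fz I a)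
      (cell I) (fk I a)) := by
  have h11 : TS.LF (fun I _ => stat I 11 : TS.Fn k) := lf_stat (TS.LF.const 11)
  have h12 : TS.LF (fun I _ => stat I 12 : TS.Fn k) := lf_stat (TS.LF.const 12)
  unfold MX.dgt
  exact TS.LF.ite (TS.LFP.lt hk h11)
    (TS.LF.ite (TS.LFP.lt hk hc) ((TS.LF.divPow lf_qI hz hk).mod lf_qI) (TS.LF.const 0))
    (TS.LF.ite (TS.LFP.lt hk (h11.add h12)) ((TS.LF.divPow lf_qI hx (hk.sub h11)).mod lf_qI)
      (TS.LF.ite (TS.LFP.lt hk ((h11.add h12).add ((TS.LF.const 310).mul ha)))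
        (lf_cell (hk.sub (h11.add h12))) (TS.LF.const 0)))

theorem lf_hst {fc fa fx fz fo : TS.Fn k} (hc : TS.LF fc) (ha : TS.LF fa) (hx : TS.LF fx)
    (hz : TS.LF fz) (ho : TS.LF fo) :
    TS.LF (fun I a => hst (qI I) (stat I 11) (stat I 12) (fc I a) (fa I a) (fx I a) (fz I a)
      (cell I) (fo I a)) := by
  have h11 : TS.LF (fun I _ => stat I 11 : TS.Fn k) := lf_stat (TS.LF.const 11)
  have h12 : TS.LF (fun I _ => stat I 12 : TS.Fn k) := lf_stat (TS.LF.const 12)
  have hN : TS.LF (fun I a => stat I 11 + stat I 12 + 310 * fa I a) :=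
    (h11.add h12).add ((TS.LF.const 310).mul ha)
  have hcl : ∀ i : ℕ, TS.LF (fun I a => cell I (310 * fa I a + (62 + 4 * fo I a + i))) := fun i =>
    lf_cell (((TS.LF.const 310).mul ha).add
      (((TS.LF.const 62).add ((TS.LF.const 4).mul ho)).add (TS.LF.const i)))
  have hd : TS.LF (fun I b => MX.dgt (qI I) (stat I 11) (stat I 12) (fc I (Fin.tail b))
      (fa I (Fin.tail b)) (fx I (Fin.tail b)) (fz I (Fin.tail b)) (cell I) (b 0) :
      TS.Fn (k + 1)) := lf_dgt hc.weak ha.weak hx.weak hz.weak (TS.LF.proj 0)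
  have h1 := (((hcl 1).mul (lf_evn (d := fun I a => MX.dgt (qI I) (stat I 11) (stat I 12) (fc I a)
    (fa I a) (fx I a) (fz I a) (cell I)) hN hd (hcl 0))).add ((hcl 3).mul (lf_evn
    (d := fun I a => MX.dgt (qI I) (stat I 11) (stat I 12) (fc I a)
    (fa I a) (fx I a) (fz I a) (cell I)) hN hd (hcl 2)))).mod lf_qI
  refine h1.congr fun I a => ?_
  unfold hst hsn
  simp only [Nat.add_zero]
  rw [Nat.add_mod, Nat.mul_mod_mod, Nat.mul_mod_mod, ← Nat.add_mod]

/-- Shift of the digits, with cut powers. -/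
def shc (M q c : ℕ) (b : ℕ → ℕ) (z : ℕ) : ℕ :=
  ∑ k ∈ range c, ((z / q ^ k + b k) % q) * min (q ^ k) (M + 1)

theorem shc_eq {M q c : ℕ} (hq : 0 < q) (b : ℕ → ℕ) (z : ℕ) (h : q ^ c ≤ M + 1) :
    shc M q c b z = shz q c b z := by
  unfold shc shz
  refine sum_congr rfl fun k hk => ?_
  rw [min_eq_left ((Nat.pow_le_pow_right hq (mem_range.1 hk).le).trans h)]

theorem lf_shc {fc fz : TS.Fn k} {b : TS.Inp → (Fin k → ℕ) → ℕ → ℕ} (hc : TS.LF fc)
    (hz : TS.LF fz) (hb : TS.LF (fun I v => b I (Fin.tail v) (v 0) : TS.Fn (k + 1))) :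
    TS.LF (fun I a => shc (bnd I) (qI I) (fc I a) (b I a) (fz I a)) := by
  unfold shc
  refine lf_smr hc ?_
  exact (((TS.LF.divPow lf_qI hz.weak (TS.LF.proj 0)).add hb).mod lf_qI).mul
    (TS.LF.powMin lf_qI (TS.LF.proj 0) lf_bnd)

/-! ### The programs -/

/-- Number of digits of `z`. Arguments: level of the data, `x`. -/
def cF : TS.Fn 2 := fun I a => ask I (a 0) (Nat.pair 1 (Nat.pair (a 1) 0))

/-- Arguments: `c, x, z, a, j`. -/
def zF : TS.Fn 5 := fun I a => shc (bnd I) (qI I) (a 0) (bvn (qI I) (a 3) (cell I)) (a 2)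
def zG : TS.Fn 5 := fun I a => shc (bnd I) (qI I) (a 0) (nbv (qI I) (a 3) (cell I)) (a 2)
def tF : TS.Fn 5 := fun I a =>
  (cell I (a 4) + bvn (qI I) (a 3) (cell I) (stat I 11 + stat I 12 + a 4)) % qI I
def tG : TS.Fn 5 := fun I a =>
  (cell I (a 4) + nbv (qI I) (a 3) (cell I) (stat I 11 + stat I 12 + a 4)) % qI I
def eF : TS.Fn 5 := fun I a =>
  (cell I (a 4) + hst (qI I) (stat I 11) (stat I 12) (a 0) (a 3) (a 1) (a 2) (cell I)
    (a 4 - 310 * a 3)) % qI I
def eG : TS.Fn 5 := fun I a =>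
  (cell I (a 4) + (qI I - hst (qI I) (stat I 11) (stat I 12) (a 0) (a 3) (a 1) (a 2) (cell I)
    (a 4 - 310 * a 3))) % qI I

theorem lf_cF : TS.LF cF :=
  lf_ask (TS.LF.proj 0) (lf_pair (TS.LF.const 1) (lf_pair (TS.LF.proj 1) (TS.LF.const 0)))

theorem lf_zF : TS.LF zF :=
  lf_shc (b := fun I a => bvn (qI I) (a 3) (cell I)) (TS.LF.proj 0) (TS.LF.proj 2)
    (lf_bvn (fa := fun _ v => Fin.tail v 3) (TS.LF.proj 3).weak (TS.LF.proj 0))

theorem lf_zG : TS.LF zG :=
  lf_shc (b := fun I a => nbv (qI I) (a 3) (cell I)) (TS.LF.proj 0) (TS.LF.proj 2)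
    (lf_nbv (fa := fun _ v => Fin.tail v 3) (TS.LF.proj 3).weak (TS.LF.proj 0))

theorem lf_tF : TS.LF tF :=
  ((lf_cell (TS.LF.proj 4)).add (lf_bvn (TS.LF.proj 3)
    (((lf_stat (TS.LF.const 11)).add (lf_stat (TS.LF.const 12))).add (TS.LF.proj 4)))).mod lf_qI

theorem lf_tG : TS.LF tG :=
  ((lf_cell (TS.LF.proj 4)).add (lf_nbv (TS.LF.proj 3)
    (((lf_stat (TS.LF.const 11)).add (lf_stat (TS.LF.const 12))).add (TS.LF.proj 4)))).mod lf_qI

theorem lf_eF : TS.LF eF :=
  ((lf_cell (TS.LF.proj 4)).add (lf_hst (TS.LF.proj 0) (TS.LF.proj 3) (TS.LF.proj 1)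
    (TS.LF.proj 2) ((TS.LF.proj 4).sub ((TS.LF.const 310).mul (TS.LF.proj 3))))).mod lf_qI

theorem lf_eG : TS.LF eG :=
  ((lf_cell (TS.LF.proj 4)).add (lf_qI.sub (lf_hst (TS.LF.proj 0) (TS.LF.proj 3) (TS.LF.proj 1)
    (TS.LF.proj 2) ((TS.LF.proj 4).sub ((TS.LF.const 310).mul (TS.LF.proj 3)))))).mod lf_qI

/-- The registers of the arguments. -/
def arg5 : Fin 5 → ℕ := ![20, 3, 4, 6, 21]

/-- Computing and writing one cell, and going to the next one. -/
def swp (f : TS.Fn 5) : CP :=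
  .seq (.set 23 5 f arg5) (.seq (.wr 21 23) (.set 21 1 (fun _ a => a 0 + 1) (fun _ => 21)))

/-- Computing and writing the cells of the labels below level `a`. -/
def swT (f : TS.Fn 5) : CP :=
  .seq (.set 21 1 (fun _ _ => 0) (fun _ => 6)) (.seq (.set 22 1 (fun _ a => 310 * a 0) (fun _ => 6))
    (.loop 22 (swp f)))

/-- Computing and writing the first 62 cells of block `a`. -/
def swE (f : TS.Fn 5) : CP :=
  .seq (.set 21 1 (fun _ a => 310 * a 0) (fun _ => 6)) (.seq (.set 22 1 (fun _ _ => 62) (fun _ => 6))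
    (.loop 22 (swp f)))

/-- Loading the number of digits of `z`. -/
def ldc : CP := .set 20 2 cF ![15, 3]

/-- The program of `R_a`. -/
def pR : CP := .seq ldc (.seq (.set 4 5 zF arg5) (.seq (swT tF) (swE eF)))

/-- The program of the inverse of `R_a`. -/
def pRi : CP := .seq ldc (.seq (swE eG) (.seq (.set 4 5 zG arg5) (swT tG)))

theorem swp_ok {f : TS.Fn 5} (hf : TS.LF f) : (swp f).Ok :=
  ⟨hf, trivial, (TS.LF.proj 0).succ⟩

theorem swT_ok {f : TS.Fn 5} (hf : TS.LF f) : (swT f).Ok :=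
  ⟨TS.LF.zero, (TS.LF.const 310).mul (TS.LF.proj 0), swp_ok hf⟩

theorem swE_ok {f : TS.Fn 5} (hf : TS.LF f) : (swE f).Ok :=
  ⟨(TS.LF.const 310).mul (TS.LF.proj 0), TS.LF.const 62, swp_ok hf⟩

theorem pR_ok : pR.Ok := ⟨lf_cF, lf_zF, swT_ok lf_tF, swE_ok lf_eF⟩

theorem pRi_ok : pRi.Ok := ⟨lf_cF, swE_ok lf_eG, lf_zG, swT_ok lf_tG⟩

/-! ### Meaning -/

/-- The tape `t` with the cells `m, ..., m + i - 1` changed. -/
def part (t : Tape) (m i : ℕ) (G : ℕ → ℕ) : Tape := fun j =>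
  if m ≤ j ∧ j < m + i then G (j - m) else t j

theorem part_zero (t : Tape) (m : ℕ) (G : ℕ → ℕ) : part t m 0 G = t := by
  funext j
  unfold part
  rw [if_neg (by omega)]

theorem part_succ (t : Tape) (m i : ℕ) (G : ℕ → ℕ) :
    Function.update (part t m i G) (m + i) (G i) = part t m (i + 1) G := by
  funext j
  unfold part Function.update
  by_cases h : j = m + i
  · subst h
    simp only [dite_true]
    rw [if_pos (by omega), Nat.add_sub_cancel_left]
  · rw [dif_neg h]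
    simp only
    by_cases h1 : m ≤ j ∧ j < m + i
    · rw [if_pos h1, if_pos (by omega)]
    · rw [if_neg h1, if_neg (by omega)]

/-- The arguments. -/
def val5 (s : St) (j : ℕ) : Fin 5 → ℕ := ![s.reg 20, s.reg 3, s.reg 4, s.reg 6, j]

theorem arg5_val (s : St) : (fun j => s.reg (arg5 j)) = val5 s (s.reg 21) := by
  funext j
  fin_cases j <;> rfl

variable {E : Env} {V : Orc}

theorem den_swp {f : TS.Fn 5} {s : St} (h1 : s.reg 21 < E.L) (h2 : s.reg 21 + 1 ≤ E.B) :
    (den E V (swp f) s).tp = Function.update s.tp (s.reg 21)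
      (min (f (inp E V s.tp) (val5 s (s.reg 21))) E.B % E.w) ∧
    (den E V (swp f) s).reg 21 = s.reg 21 + 1 ∧
    ∀ r, r ≠ 21 → r ≠ 23 → (den E V (swp f) s).reg r = s.reg r := by
  have e : den E V (swp f) s = den E V (.seq (.wr 21 23) (.set 21 1 (fun _ a => a 0 + 1)
      (fun _ => 21))) (s.set 23 (min (f (inp E V s.tp) (val5 s (s.reg 21))) E.B)) := by
    rw [← arg5_val]
    rfl
  rw [e]
  have h3 : (s.set 23 (min (f (inp E V s.tp) (val5 s (s.reg 21))) E.B)).reg 21 = s.reg 21 := by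
    simp [St.set]
  have h4 : (s.set 23 (min (f (inp E V s.tp) (val5 s (s.reg 21))) E.B)).reg 23 =
    min (f (inp E V s.tp) (val5 s (s.reg 21))) E.B := by
    simp [St.set]
  simp only [den, h3, h4, if_pos h1]
  refine ⟨rfl, ?_, fun r hr hr' => ?_⟩
  · simp only [St.set_reg, Function.update_self]
    exact min_eq_left h2
  · simp only [St.set_reg]
    rw [Function.update_of_ne hr, Function.update_of_ne hr']

theorem val5_congr {s s' : St} (h20 : s'.reg 20 = s.reg 20) (h3 : s'.reg 3 = s.reg 3)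
    (h4 : s'.reg 4 = s.reg 4) (h6 : s'.reg 6 = s.reg 6) (j : ℕ) : val5 s' j = val5 s j := by
  unfold val5
  rw [h20, h3, h4, h6]

/-- The loop: cells `m, ..., m + n - 1` are changed. -/
theorem den_swp_iter {f : TS.Fn 5} {s : St} {m : ℕ} {G : ℕ → ℕ} (hm : s.reg 21 = m) :
    ∀ n : ℕ, m + n ≤ E.L → m + n ≤ E.B →
    (∀ i < n, min (f (inp E V (part s.tp m i G)) (val5 s (m + i))) E.B % E.w = G i) →
    ((den E V (swp f))^[n] s).tp = part s.tp m n G ∧
      ((den E V (swp f))^[n] s).reg 21 = m + n ∧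
      ∀ r, r ≠ 21 → r ≠ 23 → ((den E V (swp f))^[n] s).reg r = s.reg r := by
  intro n
  induction n with
  | zero =>
    intro _ _ _
    refine ⟨?_, ?_, fun r _ _ => rfl⟩
    · rw [part_zero]; rfl
    · rw [Nat.add_zero]; exact hm
  | succ n ih =>
    intro hL hB hG
    obtain ⟨i1, i2, i3⟩ := ih (by omega) (by omega) (fun i hi => hG i (by omega))
    rw [Function.iterate_succ_apply']
    generalize hs' : (den E V (swp f))^[n] s = s' at i1 i2 i3 ⊢
    obtain ⟨j1, j2, j3⟩ := den_swp (E := E) (V := V) (f := f) (s := s') (by omega) (by omega)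
    refine ⟨?_, by omega, fun r hr hr' => (j3 r hr hr').trans (i3 r hr hr')⟩
    rw [j1, i1, i2, val5_congr (i3 20 (by omega) (by omega)) (i3 3 (by omega) (by omega))
      (i3 4 (by omega) (by omega)) (i3 6 (by omega) (by omega)), hG n (by omega), part_succ]

theorem den_swT {f : TS.Fn 5} {s : St} {G : ℕ → ℕ} (hL : 310 * s.reg 6 ≤ E.L)
    (hB : 310 * s.reg 6 ≤ E.B)
    (hG : ∀ i < 310 * s.reg 6, min (f (inp E V (part s.tp 0 i G)) (val5 s i)) E.B % E.w = G i) :
    (den E V (swT f) s).tp = part s.tp 0 (310 * s.reg 6) G ∧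
      ∀ r < 21, (den E V (swT f) s).reg r = s.reg r := by
  have e : den E V (swT f) s = (den E V (swp f))^[310 * s.reg 6]
      ((s.set 21 0).set 22 (310 * s.reg 6)) := by
    unfold swT
    simp only [den]
    have h1 : (s.set 21 (min 0 E.B)) = s.set 21 0 := by simp
    have h2 : (s.set 21 0).reg 6 = s.reg 6 := by simp [St.set]
    rw [h1, h2, min_eq_left hB]
    congr 1
  rw [e]
  have h3 : ∀ r < 21, ((s.set 21 0).set 22 (310 * s.reg 6)).reg r = s.reg r := by
    intro r hr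
    simp only [St.set_reg]
    rw [Function.update_of_ne (by omega), Function.update_of_ne (by omega)]
  obtain ⟨j1, _, j3⟩ := den_swp_iter (E := E) (V := V) (f := f)
    (s := (s.set 21 0).set 22 (310 * s.reg 6)) (m := 0) (G := G) (by simp [St.set])
    (310 * s.reg 6) (by omega) (by omega) (by
      intro i hi
      have h4 := hG i hi
      rw [Nat.zero_add, val5_congr (h3 20 (by omega)) (h3 3 (by omega)) (h3 4 (by omega))
        (h3 6 (by omega))]
      exact h4)
  exact ⟨j1, fun r hr => (j3 r (by omega) (by omega)).trans (h3 r hr)⟩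

theorem den_swE {f : TS.Fn 5} {s : St} {G : ℕ → ℕ} (hL : 310 * (s.reg 6 + 1) ≤ E.L)
    (hB : 310 * (s.reg 6 + 1) ≤ E.B)
    (hG : ∀ i < 62, min (f (inp E V (part s.tp (310 * s.reg 6) i G))
      (val5 s (310 * s.reg 6 + i))) E.B % E.w = G i) :
    (den E V (swE f) s).tp = part s.tp (310 * s.reg 6) 62 G ∧
      ∀ r < 21, (den E V (swE f) s).reg r = s.reg r := by
  have e : den E V (swE f) s = (den E V (swp f))^[62]
      ((s.set 21 (310 * s.reg 6)).set 22 62) := by
    unfold swE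
    simp only [den]
    rw [min_eq_left (show 310 * s.reg 6 ≤ E.B by omega), min_eq_left (show 62 ≤ E.B by omega)]
    congr 1
  rw [e]
  have h3 : ∀ r < 21, ((s.set 21 (310 * s.reg 6)).set 22 62).reg r = s.reg r := by
    intro r hr
    simp only [St.set_reg]
    rw [Function.update_of_ne (by omega), Function.update_of_ne (by omega)]
  obtain ⟨j1, _, j3⟩ := den_swp_iter (E := E) (V := V) (f := f)
    (s := (s.set 21 (310 * s.reg 6)).set 22 62) (m := 310 * s.reg 6) (G := G) (by simp [St.set])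
    62 (by omega) (by omega) (by
      intro i hi
      have h4 := hG i hi
      rw [val5_congr (h3 20 (by omega)) (h3 3 (by omega)) (h3 4 (by omega))
        (h3 6 (by omega))]
      exact h4)
  exact ⟨j1, fun r hr => (j3 r (by omega) (by omega)).trans (h3 r hr)⟩

/-- What is used of the environment. -/
structure MEnv (E : Env) (q cm nd : ℕ) : Prop where
  q0 : 0 < q
  qB : q ≤ E.B
  w : E.w = q
  s1 : E.st 1 = q
  s11 : E.st 11 = cm
  s12 : E.st 12 = nd
  cmB : cm ≤ E.B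
  ndB : nd ≤ E.B
  L : E.L ≤ E.B

section

variable {q cm nd : ℕ} (h : MEnv E q cm nd)
include h

theorem MEnv.cell {t : Tape} (ht : TOk E t) : CT.cell (inp E V t) = t := by
  funext j
  rw [cell_inp]
  refine min_eq_left ?_
  have h1 := h.qB
  rcases lt_or_ge j E.L with h2 | h2
  · have := ht.1 j h2
    rw [h.w] at this
    omega
  · rw [ht.2 j h2]
    omega

theorem MEnv.qI (t : Tape) : CT.qI (inp E V t) = q := by
  unfold CT.qI
  rw [stat_inp, h.s1, min_eq_left h.qB]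
  have := h.q0
  omega

theorem MEnv.st11 (t : Tape) : stat (inp E V t) 11 = cm := by
  rw [stat_inp, h.s11, min_eq_left h.cmB]

theorem MEnv.st12 (t : Tape) : stat (inp E V t) 12 = nd := by
  rw [stat_inp, h.s12, min_eq_left h.ndB]

theorem MEnv.fin (v : ℕ) : min (v % q) E.B % E.w = v % q := by
  have h1 := Nat.mod_lt v h.q0
  have h2 := h.qB
  rw [min_eq_left (by omega), h.w, Nat.mod_mod]

theorem MEnv.part_ok {t : Tape} (ht : TOk E t) {m i : ℕ} {G : ℕ → ℕ} (hG : ∀ i, G i < q)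
    (hm : m + i ≤ E.L) : TOk E (part t m i G) := by
  constructor
  · intro j hj
    unfold part
    split_ifs
    · rw [h.w]; exact hG _
    · exact ht.1 j hj
  · intro j hj
    unfold part
    rw [if_neg (by omega)]
    exact ht.2 j hj

/-- Shift of the labels. -/
theorem den_swT_tF {s : St} (ht : TOk E s.tp) (hL : 310 * (s.reg 6 + 1) ≤ E.L) :
    (den E V (swT tF) s).tp = mt1 q cm nd (s.reg 6) s.tp ∧
      ∀ r < 21, (den E V (swT tF) s).reg r = s.reg r := by
  obtain ⟨G, hG⟩ : ∃ G : ℕ → ℕ, G = fun j => (s.tp j + bvn q (s.reg 6) s.tp (cm + nd + j)) % q :=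
    ⟨_, rfl⟩
  have hGq : ∀ i, G i < q := fun i => by rw [hG]; exact Nat.mod_lt _ h.q0
  have hLB := h.L
  obtain ⟨h1, h2⟩ := den_swT (E := E) (V := V) (f := tF) (s := s) (G := G) (by omega) (by omega)
    (by
      intro i hi
      have hT : TOk E (part s.tp 0 i G) := h.part_ok ht hGq (by omega)
      have e1 : part s.tp 0 i G i = s.tp i := by
        unfold part
        rw [if_neg (by omega)]
      have e2 : bvn q (s.reg 6) (part s.tp 0 i G) (cm + nd + i) =
          bvn q (s.reg 6) s.tp (cm + nd + i) := by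
        apply bvn_congr
        intro i' _
        unfold part
        rw [if_neg (by omega)]
      show min ((CT.cell (inp E V (part s.tp 0 i G)) i + bvn (CT.qI (inp E V (part s.tp 0 i G)))
        (s.reg 6) (CT.cell (inp E V (part s.tp 0 i G))) (stat (inp E V (part s.tp 0 i G)) 11 +
        stat (inp E V (part s.tp 0 i G)) 12 + i)) % CT.qI (inp E V (part s.tp 0 i G))) E.B %
        E.w = G i
      rw [h.cell hT, h.qI, h.st11, h.st12, e1, e2, h.fin, hG])
  refine ⟨?_, h2⟩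
  rw [h1]
  funext j
  unfold part mt1 sht
  rw [hG]
  by_cases hj : j < 310 * s.reg 6
  · rw [if_pos ⟨Nat.zero_le _, by omega⟩, if_pos hj, Nat.sub_zero]
  · rw [if_neg (by omega), if_neg hj]

/-- Inverse shift of the labels. -/
theorem den_swT_tG {s : St} (ht : TOk E s.tp) (hL : 310 * (s.reg 6 + 1) ≤ E.L) :
    (den E V (swT tG) s).tp =
        sht q (310 * s.reg 6) (fun j => nbv q (s.reg 6) s.tp (cm + nd + j)) s.tp ∧
      ∀ r < 21, (den E V (swT tG) s).reg r = s.reg r := by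
  obtain ⟨G, hG⟩ : ∃ G : ℕ → ℕ, G = fun j => (s.tp j + nbv q (s.reg 6) s.tp (cm + nd + j)) % q :=
    ⟨_, rfl⟩
  have hGq : ∀ i, G i < q := fun i => by rw [hG]; exact Nat.mod_lt _ h.q0
  have hLB := h.L
  obtain ⟨h1, h2⟩ := den_swT (E := E) (V := V) (f := tG) (s := s) (G := G) (by omega) (by omega)
    (by
      intro i hi
      have hT : TOk E (part s.tp 0 i G) := h.part_ok ht hGq (by omega)
      have e1 : part s.tp 0 i G i = s.tp i := by
        unfold part
        rw [if_neg (by omega)]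
      have e2 : nbv q (s.reg 6) (part s.tp 0 i G) (cm + nd + i) =
          nbv q (s.reg 6) s.tp (cm + nd + i) := by
        apply nbv_congr
        intro i' _
        unfold part
        rw [if_neg (by omega)]
      show min ((CT.cell (inp E V (part s.tp 0 i G)) i + nbv (CT.qI (inp E V (part s.tp 0 i G)))
        (s.reg 6) (CT.cell (inp E V (part s.tp 0 i G))) (stat (inp E V (part s.tp 0 i G)) 11 +
        stat (inp E V (part s.tp 0 i G)) 12 + i)) % CT.qI (inp E V (part s.tp 0 i G))) E.B %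
        E.w = G i
      rw [h.cell hT, h.qI, h.st11, h.st12, e1, e2, h.fin, hG])
  refine ⟨?_, h2⟩
  rw [h1]
  funext j
  unfold part sht
  rw [hG]
  by_cases hj : j < 310 * s.reg 6
  · rw [if_pos ⟨Nat.zero_le _, by omega⟩, if_pos hj, Nat.sub_zero]
  · rw [if_neg (by omega), if_neg hj]

/-- Adding the hash value. -/
theorem den_swE_eF {s : St} (ht : TOk E s.tp) (hL : 310 * (s.reg 6 + 1) ≤ E.L) :
    (den E V (swE eF) s).tp = adh q (s.reg 6) (hst q cm nd (s.reg 20) (s.reg 6) (s.reg 3)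
        (s.reg 4) s.tp) s.tp ∧
      ∀ r < 21, (den E V (swE eF) s).reg r = s.reg r := by
  obtain ⟨G, hG⟩ : ∃ G : ℕ → ℕ, G = fun o => (s.tp (310 * s.reg 6 + o) +
    hst q cm nd (s.reg 20) (s.reg 6) (s.reg 3) (s.reg 4) s.tp o) % q := ⟨_, rfl⟩
  have hGq : ∀ i, G i < q := fun i => by rw [hG]; exact Nat.mod_lt _ h.q0
  have hLB := h.L
  obtain ⟨h1, h2⟩ := den_swE (E := E) (V := V) (f := eF) (s := s) (G := G) (by omega) (by omega)
    (by
      intro i hi
      have hT : TOk E (part s.tp (310 * s.reg 6) i G) := h.part_ok ht hGq (by omega)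
      have e1 : part s.tp (310 * s.reg 6) i G (310 * s.reg 6 + i) = s.tp (310 * s.reg 6 + i) := by
        unfold part
        rw [if_neg (by omega)]
      have e2 : hst q cm nd (s.reg 20) (s.reg 6) (s.reg 3) (s.reg 4)
          (part s.tp (310 * s.reg 6) i G) i =
          hst q cm nd (s.reg 20) (s.reg 6) (s.reg 3) (s.reg 4) s.tp i := by
        apply hst_congr _ hi
        intro i' hi' _
        unfold part
        rw [if_neg (by omega)]
      show min ((CT.cell (inp E V (part s.tp (310 * s.reg 6) i G)) (310 * s.reg 6 + i) +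
        hst (CT.qI (inp E V (part s.tp (310 * s.reg 6) i G)))
          (stat (inp E V (part s.tp (310 * s.reg 6) i G)) 11)
          (stat (inp E V (part s.tp (310 * s.reg 6) i G)) 12) (s.reg 20) (s.reg 6) (s.reg 3)
          (s.reg 4) (CT.cell (inp E V (part s.tp (310 * s.reg 6) i G)))
          (310 * s.reg 6 + i - 310 * s.reg 6)) %
        CT.qI (inp E V (part s.tp (310 * s.reg 6) i G))) E.B % E.w = G i
      rw [h.cell hT, h.qI, h.st11, h.st12, e1, Nat.add_sub_cancel_left, e2, h.fin, hG])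
  refine ⟨?_, h2⟩
  rw [h1]
  funext j
  unfold part adh
  rw [hG]
  by_cases hj : 310 * s.reg 6 ≤ j ∧ j < 310 * s.reg 6 + 62
  · rw [if_pos hj, if_pos hj]
    simp only
    rw [Nat.add_sub_cancel' hj.1]
  · rw [if_neg hj, if_neg hj]

/-- Subtracting the hash value. -/
theorem den_swE_eG {s : St} (ht : TOk E s.tp) (hL : 310 * (s.reg 6 + 1) ≤ E.L) :
    (den E V (swE eG) s).tp = ut1 q cm nd (s.reg 20) (s.reg 6) (s.reg 3) (s.reg 4) s.tp ∧
      ∀ r < 21, (den E V (swE eG) s).reg r = s.reg r := by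
  obtain ⟨G, hG⟩ : ∃ G : ℕ → ℕ, G = fun o => (s.tp (310 * s.reg 6 + o) +
    (q - hst q cm nd (s.reg 20) (s.reg 6) (s.reg 3) (s.reg 4) s.tp o)) % q := ⟨_, rfl⟩
  have hGq : ∀ i, G i < q := fun i => by rw [hG]; exact Nat.mod_lt _ h.q0
  have hLB := h.L
  obtain ⟨h1, h2⟩ := den_swE (E := E) (V := V) (f := eG) (s := s) (G := G) (by omega) (by omega)
    (by
      intro i hi
      have hT : TOk E (part s.tp (310 * s.reg 6) i G) := h.part_ok ht hGq (by omega)
      have e1 : part s.tp (310 * s.reg 6) i G (310 * s.reg 6 + i) = s.tp (310 * s.reg 6 + i) := by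
        unfold part
        rw [if_neg (by omega)]
      have e2 : hst q cm nd (s.reg 20) (s.reg 6) (s.reg 3) (s.reg 4)
          (part s.tp (310 * s.reg 6) i G) i =
          hst q cm nd (s.reg 20) (s.reg 6) (s.reg 3) (s.reg 4) s.tp i := by
        apply hst_congr _ hi
        intro i' hi' _
        unfold part
        rw [if_neg (by omega)]
      show min ((CT.cell (inp E V (part s.tp (310 * s.reg 6) i G)) (310 * s.reg 6 + i) +
        (CT.qI (inp E V (part s.tp (310 * s.reg 6) i G)) -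
          hst (CT.qI (inp E V (part s.tp (310 * s.reg 6) i G)))
          (stat (inp E V (part s.tp (310 * s.reg 6) i G)) 11)
          (stat (inp E V (part s.tp (310 * s.reg 6) i G)) 12) (s.reg 20) (s.reg 6) (s.reg 3)
          (s.reg 4) (CT.cell (inp E V (part s.tp (310 * s.reg 6) i G)))
          (310 * s.reg 6 + i - 310 * s.reg 6))) %
        CT.qI (inp E V (part s.tp (310 * s.reg 6) i G))) E.B % E.w = G i
      rw [h.cell hT, h.qI, h.st11, h.st12, e1, Nat.add_sub_cancel_left, e2, h.fin, hG])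
  refine ⟨?_, h2⟩
  rw [h1]
  funext j
  unfold part ut1 adh
  rw [hG]
  by_cases hj : 310 * s.reg 6 ≤ j ∧ j < 310 * s.reg 6 + 62
  · rw [if_pos hj, if_pos hj]
    simp only
    rw [Nat.add_sub_cancel' hj.1]
  · rw [if_neg hj, if_neg hj]

theorem MEnv.mt1_ok {a : ℕ} {t : Tape} (ht : TOk E t) (hL : 310 * (a + 1) ≤ E.L) :
    TOk E (mt1 q cm nd a t) := by
  constructor
  · intro j hj
    rw [h.w]
    exact mt1_lt h.q0 (fun j hj => by rw [← h.w]; exact ht.1 j hj) hj
  · intro j hj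
    unfold mt1
    rw [sht_of_le _ _ (by omega)]
    exact ht.2 j hj

theorem MEnv.ut1_ok {c a x z : ℕ} {t : Tape} (ht : TOk E t) (hL : 310 * (a + 1) ≤ E.L) :
    TOk E (ut1 q cm nd c a x z t) := by
  constructor
  · intro j hj
    rw [h.w]
    exact ut1_lt h.q0 (fun j hj => by rw [← h.w]; exact ht.1 j hj) hj
  · intro j hj
    unfold ut1
    rw [adh_of_not _ _ (by omega)]
    exact ht.2 j hj

/-- Valid tapes remain valid. -/
theorem MEnv.mixN_ok {c a x z : ℕ} {t : Tape} (ht : TOk E t) (hL : 310 * (a + 1) ≤ E.L) :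
    TOk E (mixN q cm nd c a x z t).2 := by
  constructor
  · intro j hj
    rw [h.w]
    exact mixN_lt h.q0 (fun j hj => by rw [← h.w]; exact ht.1 j hj) hj
  · intro j hj
    rw [mixN_above (by omega)]
    exact ht.2 j hj

theorem MEnv.unmixN_ok {c a x z : ℕ} {t : Tape} (ht : TOk E t) (hL : 310 * (a + 1) ≤ E.L) :
    TOk E (unmixN q cm nd c a x z t).2 := by
  constructor
  · intro j hj
    rw [h.w]
    exact unmixN_lt h.q0 (fun j hj => by rw [← h.w]; exact ht.1 j hj) hj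
  · intro j hj
    rw [unmixN_above (by omega)]
    exact ht.2 j hj

omit h in
theorem den_ldc (s : St) : den E V ldc s =
    s.set 20 (ask (inp E V s.tp) (s.reg 15) (Nat.pair 1 (Nat.pair (s.reg 3) 0))) := by
  have h1 : den E V ldc s = s.set 20 (min (ask (inp E V s.tp) (s.reg 15)
      (Nat.pair 1 (Nat.pair (s.reg 3) 0))) E.B) := rfl
  rw [h1, min_eq_left]
  rw [ask_inp]
  exact min_le_right _ _

theorem den_zF {s : St} (ht : TOk E s.tp) (hc : q ^ s.reg 20 ≤ E.B + 1) :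
    den E V (.set 4 5 zF arg5) s = s.set 4 (mz1 q (s.reg 20) (s.reg 6) (s.reg 4) s.tp) := by
  have h1 : den E V (.set 4 5 zF arg5) s = s.set 4 (min (zF (inp E V s.tp)
      (val5 s (s.reg 21))) E.B) := by
    rw [← arg5_val]
    rfl
  have h2 : zF (inp E V s.tp) (val5 s (s.reg 21)) =
      mz1 q (s.reg 20) (s.reg 6) (s.reg 4) s.tp := by
    show shc (bnd (inp E V s.tp)) (CT.qI (inp E V s.tp)) (s.reg 20)
      (bvn (CT.qI (inp E V s.tp)) (s.reg 6) (CT.cell (inp E V s.tp))) (s.reg 4) = _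
    rw [h.cell ht, h.qI, bnd_inp, shc_eq h.q0 _ _ hc]
    rfl
  have h3 : mz1 q (s.reg 20) (s.reg 6) (s.reg 4) s.tp < q ^ s.reg 20 := shz_lt h.q0 _ _ _
  rw [h1, h2, min_eq_left (by omega)]

theorem den_zG {s : St} (ht : TOk E s.tp) (hc : q ^ s.reg 20 ≤ E.B + 1) :
    den E V (.set 4 5 zG arg5) s =
      s.set 4 (shz q (s.reg 20) (nbv q (s.reg 6) s.tp) (s.reg 4)) := by
  have h1 : den E V (.set 4 5 zG arg5) s = s.set 4 (min (zG (inp E V s.tp)
      (val5 s (s.reg 21))) E.B) := by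
    rw [← arg5_val]
    rfl
  have h2 : zG (inp E V s.tp) (val5 s (s.reg 21)) =
      shz q (s.reg 20) (nbv q (s.reg 6) s.tp) (s.reg 4) := by
    show shc (bnd (inp E V s.tp)) (CT.qI (inp E V s.tp)) (s.reg 20)
      (nbv (CT.qI (inp E V s.tp)) (s.reg 6) (CT.cell (inp E V s.tp))) (s.reg 4) = _
    rw [h.cell ht, h.qI, bnd_inp, shc_eq h.q0 _ _ hc]
  have h3 : shz q (s.reg 20) (nbv q (s.reg 6) s.tp) (s.reg 4) < q ^ s.reg 20 := shz_lt h.q0 _ _ _
  rw [h1, h2, min_eq_left (by omega)]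

/-- THE PROGRAM OF `R_a`. -/
theorem den_pR {s : St} {c : ℕ} (ht : TOk E s.tp) (hL : 310 * (s.reg 6 + 1) ≤ E.L)
    (hc : ask (inp E V s.tp) (s.reg 15) (Nat.pair 1 (Nat.pair (s.reg 3) 0)) = c)
    (hqc : q ^ c ≤ E.B + 1) :
    (den E V pR s).reg 4 = (mixN q cm nd c (s.reg 6) (s.reg 3) (s.reg 4) s.tp).1 ∧
    (den E V pR s).tp = (mixN q cm nd c (s.reg 6) (s.reg 3) (s.reg 4) s.tp).2 ∧
    ∀ r < 20, r ≠ 4 → (den E V pR s).reg r = s.reg r := by
  have e1 : den E V pR s = den E V (.seq (.set 4 5 zF arg5) (.seq (swT tF) (swE eF)))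
      (s.set 20 c) := by
    show den E V _ (den E V ldc s) = _
    rw [den_ldc, hc]
  obtain ⟨s1, hs1⟩ : ∃ s1, s1 = s.set 20 c := ⟨_, rfl⟩
  have r1 : ∀ r < 20, s1.reg r = s.reg r := by
    intro r hr
    rw [hs1, St.set_reg, Function.update_of_ne (by omega)]
  have r1' : s1.reg 20 = c := by rw [hs1, St.set_reg, Function.update_self]
  have t1 : s1.tp = s.tp := by rw [hs1]; rfl
  rw [← hs1] at e1
  have e2 : den E V pR s = den E V (.seq (swT tF) (swE eF))
      (s1.set 4 (mz1 q c (s.reg 6) (s.reg 4) s.tp)) := by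
    rw [e1]
    show den E V _ (den E V (.set 4 5 zF arg5) s1) = _
    rw [den_zF h (by rw [t1]; exact ht) (by rw [r1']; exact hqc), r1', t1, r1 6 (by omega),
      r1 4 (by omega)]
  obtain ⟨s2, hs2⟩ : ∃ s2, s2 = s1.set 4 (mz1 q c (s.reg 6) (s.reg 4) s.tp) := ⟨_, rfl⟩
  have r2 : ∀ r, r ≠ 4 → s2.reg r = s1.reg r := by
    intro r hr
    rw [hs2, St.set_reg, Function.update_of_ne hr]
  have r2' : s2.reg 4 = mz1 q c (s.reg 6) (s.reg 4) s.tp := by
    rw [hs2, St.set_reg, Function.update_self]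
  have t2 : s2.tp = s.tp := by rw [hs2]; exact t1
  rw [← hs2] at e2
  have h6 : s2.reg 6 = s.reg 6 := by rw [r2 6 (by omega), r1 6 (by omega)]
  obtain ⟨t3, r3⟩ := den_swT_tF (V := V) h (s := s2) (by rw [t2]; exact ht)
    (by rw [h6]; exact hL)
  have e3 : den E V pR s = den E V (swE eF) (den E V (swT tF) s2) := e2
  generalize den E V (swT tF) s2 = s3 at t3 r3 e3
  rw [t2, h6] at t3
  have h6' : s3.reg 6 = s.reg 6 := by rw [r3 6 (by omega), h6]
  obtain ⟨t4, r4⟩ := den_swE_eF (V := V) h (s := s3)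
    (by rw [t3]; exact h.mt1_ok ht hL) (by rw [h6']; exact hL)
  rw [e3]
  refine ⟨?_, ?_, fun r hr hr4 => ?_⟩
  · rw [r4 4 (by omega), r3 4 (by omega), r2']
    rfl
  · rw [t4, t3, h6', r3 20 (by omega), r3 3 (by omega), r3 4 (by omega), r2', r2 20 (by omega),
      r1', r2 3 (by omega), r1 3 (by omega)]
    rfl
  · rw [r4 r (by omega), r3 r (by omega), r2 r hr4, r1 r hr]

/-- THE PROGRAM OF THE INVERSE OF `R_a`. -/
theorem den_pRi {s : St} {c : ℕ} (ht : TOk E s.tp) (hL : 310 * (s.reg 6 + 1) ≤ E.L)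
    (hc : ask (inp E V s.tp) (s.reg 15) (Nat.pair 1 (Nat.pair (s.reg 3) 0)) = c)
    (hqc : q ^ c ≤ E.B + 1) :
    (den E V pRi s).reg 4 = (unmixN q cm nd c (s.reg 6) (s.reg 3) (s.reg 4) s.tp).1 ∧
    (den E V pRi s).tp = (unmixN q cm nd c (s.reg 6) (s.reg 3) (s.reg 4) s.tp).2 ∧
    ∀ r < 20, r ≠ 4 → (den E V pRi s).reg r = s.reg r := by
  have e1 : den E V pRi s = den E V (.seq (swE eG) (.seq (.set 4 5 zG arg5) (swT tG)))
      (s.set 20 c) := by
    show den E V _ (den E V ldc s) = _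
    rw [den_ldc, hc]
  obtain ⟨s1, hs1⟩ : ∃ s1, s1 = s.set 20 c := ⟨_, rfl⟩
  have r1 : ∀ r < 20, s1.reg r = s.reg r := by
    intro r hr
    rw [hs1, St.set_reg, Function.update_of_ne (by omega)]
  have r1' : s1.reg 20 = c := by rw [hs1, St.set_reg, Function.update_self]
  have t1 : s1.tp = s.tp := by rw [hs1]; rfl
  rw [← hs1] at e1
  have e2 : den E V pRi s = den E V (.seq (.set 4 5 zG arg5) (swT tG)) (den E V (swE eG) s1) := e1
  have h6 : s1.reg 6 = s.reg 6 := r1 6 (by omega)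
  obtain ⟨t2, r2⟩ := den_swE_eG (V := V) h (s := s1) (by rw [t1]; exact ht) (by rw [h6]; exact hL)
  generalize den E V (swE eG) s1 = s2 at t2 r2 e2
  rw [t1, h6, r1', r1 3 (by omega), r1 4 (by omega)] at t2
  have r2' : s2.reg 20 = c := by rw [r2 20 (by omega), r1']
  have h6' : s2.reg 6 = s.reg 6 := by rw [r2 6 (by omega), h6]
  have hok : TOk E s2.tp := by rw [t2]; exact h.ut1_ok ht hL
  have e3 : den E V pRi s = den E V (swT tG)
      (s2.set 4 (shz q c (nbv q (s.reg 6) s2.tp) (s.reg 4))) := by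
    rw [e2]
    show den E V _ (den E V (.set 4 5 zG arg5) s2) = _
    rw [den_zG h hok (by rw [r2']; exact hqc), r2', h6', r2 4 (by omega), r1 4 (by omega)]
  obtain ⟨s3, hs3⟩ : ∃ s3, s3 = s2.set 4 (shz q c (nbv q (s.reg 6) s2.tp) (s.reg 4)) := ⟨_, rfl⟩
  have r3 : ∀ r, r ≠ 4 → s3.reg r = s2.reg r := by
    intro r hr
    rw [hs3, St.set_reg, Function.update_of_ne hr]
  have r3' : s3.reg 4 = shz q c (nbv q (s.reg 6) s2.tp) (s.reg 4) := by
    rw [hs3, St.set_reg, Function.update_self]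
  have t3 : s3.tp = s2.tp := by rw [hs3]; rfl
  rw [← hs3] at e3
  have h6'' : s3.reg 6 = s.reg 6 := by rw [r3 6 (by omega), h6']
  obtain ⟨t4, r4⟩ := den_swT_tG (V := V) h (s := s3) (by rw [t3]; exact hok)
    (by rw [h6'']; exact hL)
  rw [e3]
  refine ⟨?_, ?_, fun r hr hr4 => ?_⟩
  · rw [r4 4 (by omega), r3', t2]
    rfl
  · rw [t4, t3, h6'', t2]
    rfl
  · rw [r4 r (by omega), r3 r hr4, r2 r (by omega), r1 r hr]

end

end Vale.Agent.P313.CT
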