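import Vale.Agent.P313.CT.Mix
import Vale.Agent.P313.H899.Master

/-!
The programs of the mixing map in the context of the phases.
-/

namespace Vale.Agent.P313.CT

open BP H899

variable {C : H899.Ctx} {E : Env}

theorem menv (h : C.EnvOk E) (hq : 0 < C.p.q) (hL : C.p.L ≤ E.B) :
    MEnv E C.p.q C.p.cmax C.p.nd where
  q0 := hq
  qB := by
    have := h.stB 1 (by unfold stW; omega)
    rwa [h.s1] at this
  w := h.w
  s1 := h.s1
  s11 := h.s11
  s12 := h.s12
  cmB := by
    have := h.stB 11 (by unfold stW; omega)
    rwa [h.s11] at this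
  ndB := by
    have := h.stB 12 (by unfold stW; omega)
    rwa [h.s12] at this
  L := by rw [h.L]; exact hL

end Vale.Agent.P313.CT
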