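import Vale.Agent.P313.CT.MixN
import Vale.Agent.P313.BP.Inst

/-!
The numeric mixing maps `mixN`, `unmixN` are the mixing maps of numeric tokens in `H205.Dec`.
-/

namespace Vale.Agent.P313.MX

open Finset BP H205

variable {p : Par2} {d : SD}

theorem bvn_eq (a : ℕ) (t : ℕ → ℕ) : bvn p.q a t = (lay p d).bN a t := rfl

theorem shz_eq (c z : ℕ) (b : ℕ → ℕ) : shz p.q c b z = (lay p d).addZ c z b := by
  unfold shz Lay.addZ
  refine sum_congr rfl fun k _ => ?_
  show ((z / p.q ^ k + b k) % p.q) * p.q ^ k = ((z / p.q ^ k % p.q + b k) % p.q) * p.q ^ k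
  rw [Nat.mod_add_mod]

theorem sht_eq (a : ℕ) (b : ℕ → ℕ) (t : ℕ → ℕ) :
    sht p.q (310 * a) (fun j => b (p.cmax + p.nd + j)) t = (lay p d).addT a t b := by
  funext j
  have h0 : (lay p d).off 0 = p.cmax + p.nd := Lay.off_zero
  unfold sht Lay.addT
  rw [h0]
  rfl

theorem adh_eq (a : ℕ) (h : ℕ → ℕ) (t : ℕ → ℕ) : adh p.q a h t = (lay p d).addE a t h := rfl

theorem dgt_eq (hq : 0 < p.q) {c a x z : ℕ} (hz : z < p.q ^ c) {t : ℕ → ℕ} {k : ℕ}
    (hk : k < p.cmax + p.nd + 310 * a) :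
    dgt p.q p.cmax p.nd c a x z t k = (lay p d).dgN x z t k := by
  have h0 : (lay p d).off 0 = p.cmax + p.nd := Lay.off_zero
  unfold dgt Lay.dgN
  rw [h0]
  show (if k < p.cmax then (if k < c then z / p.q ^ k % p.q else 0)
    else if k < p.cmax + p.nd then x / p.q ^ (k - p.cmax) % p.q
    else if k < p.cmax + p.nd + 310 * a then t (k - (p.cmax + p.nd)) else 0) =
    (if k < p.cmax then z / p.q ^ k % p.q
    else if k < p.cmax + p.nd then x / p.q ^ (k - p.cmax) % p.q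
    else t (k - (p.cmax + p.nd)))
  split_ifs with h1 h2 h3
  · rfl
  · rw [Nat.div_eq_of_lt (hz.trans_le (Nat.pow_le_pow_right hq (by omega))), Nat.zero_mod]
  · rfl
  · rfl

theorem hst_eq (hq : 0 < p.q) {c a x z : ℕ} (hz : z < p.q ^ c) (t : ℕ → ℕ) (o : ℕ) :
    hst p.q p.cmax p.nd c a x z t o = (lay p d).hN a x z t o := by
  have ho : (lay p d).off a = p.cmax + p.nd + 310 * a := rfl
  have hev : ∀ y, evn (p.cmax + p.nd + 310 * a) (dgt p.q p.cmax p.nd c a x z t) y % p.q =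
      (lay p d).evN a x z t y := by
    intro y
    unfold evn Lay.evN
    rw [ho]
    show _ = (∑ k ∈ range (p.cmax + p.nd + 310 * a), (lay p d).dgN x z t k * y ^ k) % p.q
    rw [sum_congr rfl fun k hk => by rw [dgt_eq (d := d) hq hz (mem_range.1 hk)]]
  unfold hst hsn
  have h1 : ∀ A B C D E F q : ℕ, B % q = E → D % q = F →
      (A * B + C * D) % q = (A * E + C * F) % q := by
    intro A B C D E F q hB hD
    rw [← hB, ← hD, Nat.add_mod, Nat.mul_mod A B, Nat.mul_mod C D, Nat.add_mod (A * (B % q)),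
      Nat.mul_mod A (B % q), Nat.mul_mod C (D % q), Nat.mod_mod, Nat.mod_mod]
  exact h1 _ _ _ _ _ _ _ (hev _) (hev _)

theorem mixN_eq (hq : 0 < p.q) {a x z : ℕ} (hc : d.c x ≤ p.cmax) (t : ℕ → ℕ) :
    mixN p.q p.cmax p.nd (d.c x) a x z t = ((lay p d).mixZ a x z t, (lay p d).mixT a x z t) := by
  have hcx : (lay p d).c x = d.c x := min_eq_left hc
  have h1 : mz1 p.q (d.c x) a z t = (lay p d).mixZ a x z t := by
    unfold mz1 Lay.mixZ
    rw [hcx]
    exact shz_eq _ _ _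
  have h2 : mt1 p.q p.cmax p.nd a t = (lay p d).addT a t ((lay p d).bN a t) := sht_eq a _ t
  have h3 : (lay p d).mixZ a x z t < p.q ^ d.c x := by
    rw [← h1]
    exact shz_lt hq _ _ _
  unfold mixN
  rw [h1, h2]
  refine Prod.ext rfl ?_
  show adh p.q a (hst p.q p.cmax p.nd (d.c x) a x ((lay p d).mixZ a x z t)
    ((lay p d).addT a t ((lay p d).bN a t))) ((lay p d).addT a t ((lay p d).bN a t)) = _
  rw [funext (hst_eq (d := d) hq h3 _)]
  rfl

theorem unmixN_eq (hq : 0 < p.q) {a x z : ℕ} (hc : d.c x ≤ p.cmax) (hz : z < p.q ^ d.c x)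
    (t : ℕ → ℕ) : unmixN p.q p.cmax p.nd (d.c x) a x z t =
      ((lay p d).unmixZ a x z t, (lay p d).unmixT a x z t) := by
  have hcx : (lay p d).c x = d.c x := min_eq_left hc
  have h1 : ut1 p.q p.cmax p.nd (d.c x) a x z t = (lay p d).unmixE a x z t := by
    unfold ut1
    rw [funext (hst_eq (d := d) hq hz _)]
    rfl
  unfold unmixN
  rw [h1]
  refine Prod.ext ?_ ?_
  · show shz p.q (d.c x) (nbv p.q a ((lay p d).unmixE a x z t)) z = (lay p d).unmixZ a x z t
    unfold Lay.unmixZ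
    rw [hcx]
    exact shz_eq _ _ _
  · exact sht_eq a _ _

end Vale.Agent.P313.MX
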