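import Vale.Agent.P313.CT.MixC
import Vale.Agent.P313.H644.WkDef

/-!
The programs of the mixing map are programs for the walk of a stage datum.
-/

namespace Vale.Agent.P313.CT

open BP H899 H644

variable {C : H899.Ctx} {E : Env} {V : Orc} {d : SD} {l0 : ℕ}

/-- The data level answers the question for the number of digits of `z`. -/
def CAsk (p : Par2) (d : SD) (E : Env) (V : Orc) (l0 : ℕ) : Prop :=
  ∀ t, TOk E t → ∀ x < p.n, ask (inp E V t) l0 (Nat.pair 1 (Nat.pair x 0)) = d.c x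

theorem denR_wk (h : C.EnvOk E) (hq : 0 < C.p.q) (hL : C.p.L ≤ E.B)
    (hc : CAsk C.p d E V l0) (hqc : ∀ x < C.p.n, C.p.q ^ d.c x ≤ E.B + 1) (s : St)
    (hv : Vd E (wk C.p d).n (wk C.p d).H (cn s)) (h6 : s.reg 6 < C.p.r) (h15 : s.reg 15 = l0) :
    cn (den E V pR s) = (wk C.p d).mix (s.reg 6) (cn s) ∧
      ∀ i < 20, i ≠ 4 → (den E V pR s).reg i = s.reg i := by
  obtain ⟨hx, -, ht⟩ := hv
  have hx' : s.reg 3 < C.p.n := hx
  have ht' : TOk E s.tp := ht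
  have hEL : E.L = 310 * C.p.r := h.L
  have hask : ask (inp E V s.tp) (s.reg 15) (Nat.pair 1 (Nat.pair (s.reg 3) 0)) =
      d.c (s.reg 3) := by
    rw [h15]
    exact hc _ ht' _ hx'
  obtain ⟨h1, h2, h3⟩ := den_pR (V := V) (menv h hq hL) ht' (by omega) hask (hqc _ hx')
  refine ⟨?_, h3⟩
  unfold cn
  rw [h1, h2, h3 3 (by omega) (by omega)]
  rfl

theorem denRi_wk (h : C.EnvOk E) (hq : 0 < C.p.q) (hL : C.p.L ≤ E.B)
    (hc : CAsk C.p d E V l0) (hqc : ∀ x < C.p.n, C.p.q ^ d.c x ≤ E.B + 1) (s : St)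
    (hv : Vd E (wk C.p d).n (wk C.p d).H (cn s)) (h6 : s.reg 6 < C.p.r) (h15 : s.reg 15 = l0) :
    cn (den E V pRi s) = (wk C.p d).unmix (s.reg 6) (cn s) ∧
      ∀ i < 20, i ≠ 4 → (den E V pRi s).reg i = s.reg i := by
  obtain ⟨hx, -, ht⟩ := hv
  have hx' : s.reg 3 < C.p.n := hx
  have ht' : TOk E s.tp := ht
  have hEL : E.L = 310 * C.p.r := h.L
  have hask : ask (inp E V s.tp) (s.reg 15) (Nat.pair 1 (Nat.pair (s.reg 3) 0)) =
      d.c (s.reg 3) := by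
    rw [h15]
    exact hc _ ht' _ hx'
  obtain ⟨h1, h2, h3⟩ := den_pRi (V := V) (menv h hq hL) ht' (by omega) hask (hqc _ hx')
  refine ⟨?_, h3⟩
  unfold cn
  rw [h1, h2, h3 3 (by omega) (by omega)]
  rfl

/-- The data level of the same stage answers. -/
theorem cask_of (h : C.Hyp E) {s ph : ℕ} (hs : s < C.p.S) (hph : ph < C.p.m)
    (hV : C.Right V (s * C.p.m + ph)) (h0 : 0 < ph) :
    CAsk C.p (C.dt s) E V (s * C.p.m) := by
  intro t ht x hx
  have hq : vq C.p (C.dt s) phData (Nat.pair 1 (Nat.pair x 0)) := by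
    simp only [BP.vq, if_true, BP.q1_pair, BP.q2_pair, BP.e3_pair]
    exact ⟨by omega, hx, by omega⟩
  have h1 := Ctx.Right.ask_stage h hs hph hV (show phData < ph from h0) hq
    ((tok_iff h.toEnvOk t).1 ht)
  have h2 : s * C.p.m + phData = s * C.p.m := rfl
  rw [h2] at h1
  rw [h1]
  simp [BP.phVal]

/-- The numbers of tokens are at most `B + 1`. -/
theorem pow_le_of (h : C.Hyp E) (hq : 0 < C.p.q) (hqc : C.p.q ^ C.p.cmax ≤ E.B + 1) {s : ℕ}
    (hs : s ≤ C.p.S) : ∀ x < C.p.n, C.p.q ^ (C.dt s).c x ≤ E.B + 1 := fun x hx =>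
  (Nat.pow_le_pow_right hq ((h.dtOk s hs).cm x hx)).trans hqc

end Vale.Agent.P313.CT
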