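import Vale.Agent.P313.CT.Low
import Vale.Agent.P313.H296.E4

/-!
From the engine to a deterministic machine: majority over the seeds.
-/

namespace Vale.Agent.P313.CT

open Finset

/-- The seed number `a 1` with padding `a 0` is good for the word `x`. -/
structure GoodSeed (p : CP) (c : ℕ) (e : EnvC 2) (top q0 : P313.Fn 2) (A : Set (List Bool))
    (x : List Bool) (a : Fin 2 → ℕ) : Prop where
  hw : 1 ≤ e.w x a
  htop : top x a ≤ e.B x a
  hq0 : q0 x a ≤ e.B x a
  hpad : e.w x a ^ e.L x a * (x.length + e.B x a + 2) ^ (c * (top x a + 1)) ≤ a 0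
  hres : Restores (e.at x a) p (top x a)
  hval : val (e.at x a) p (top x a) (q0 x a) (fun _ => 0) = 1 ↔ x ∈ A

open Classical in
theorem top_machine (hE : Spec_ENGINE) (p : CP) (hp : p.Ok) :
    ∃ c : ℕ, ∀ (e : EnvC 2), e.Ok → ∀ (top q0 : P313.Fn 2), P313.LF top → P313.LF q0 →
      ∀ (T g : P313.Fn 1), P313.LF T → P313.LF g → ∀ (A : Set (List Bool)) (S : ℕ → ℕ) (d : ℕ),
      (∀ x : List Bool, ∃ B : ℕ, (∀ m < B, g x (fun _ => m) = 0) ∧ g x (fun _ => B) ≠ 0 ∧
        Nat.log 2 (x.length + B + 2) ≤ d * S x.length + d ∧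
        T x (fun _ => B) < 2 * ((range (T x (fun _ => B))).filter
          (fun s => GoodSeed p c e top q0 A x ![B, s])).card) →
      ∃ (D : RTM) (e' : ℕ),
        D.Decides A (fun n => 2 ^ (e' * S n + e')) (fun n => e' * S n + e') := by
  obtain ⟨c, hc⟩ := hE p hp
  refine ⟨c, fun e he top q0 htop hq0 T g hT hg A S d h => ?_⟩
  obtain ⟨G, hG, -, hval⟩ := hc 2 e top q0 (fun _ a => a 0) he htop hq0 (P313.LF.proj 0)
  -- the decision function
  have hG2 : P313.LF (fun x b => P313.ind (G x ![b 1, b 0] = 1) : P313.Fn 2) := by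
    have h1 : P313.LF (fun x b => G x ![b 1, b 0] : P313.Fn 2) := by
      have h2 := P313.LF.comp (k := 2) (m := 2) (f := G)
        (g := ![fun _ b => b 1, fun _ b => b 0]) hG (fun i => by
          fin_cases i
          · exact P313.LF.proj 1
          · exact P313.LF.proj 0)
      refine h2.congr (fun x b => ?_)
      congr 1
      funext i
      fin_cases i <;> rfl
    exact P313.LFP.eq h1 (P313.LF.const 1)
  have hsum := P313.LF.sum hG2 hT
  have hF : P313.LF (fun x a => P313.ind (T x a < 2 * ∑ s ∈ range (T x a),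
      P313.ind (G x ![a 0, s] = 1)) : P313.Fn 1) := by
    have h3 : P313.LF (fun x a => ∑ s ∈ range (T x a), P313.ind (G x ![a 0, s] = 1) :
        P313.Fn 1) := by
      refine hsum.congr (fun x a => ?_)
      refine Finset.sum_congr rfl (fun s _ => ?_)
      rfl
    exact P313.LFP.lt hT ((P313.LF.const 2).mul h3)
  refine TS.pad_decides hF hg (S := S) (c := d) (fun x => ?_)
  obtain ⟨B, h1, h2, h3, h4⟩ := h x
  refine ⟨B, h1, h2, h3, ?_⟩
  set t := T x (fun _ => B) with ht
  set good := (range t).filter (fun s => GoodSeed p c e top q0 A x ![B, s]) with hgood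
  set ones := (range t).filter (fun s => G x ![B, s] = 1) with hones
  have hsumc : ∑ s ∈ range t, P313.ind (G x ![B, s] = 1) = ones.card := by
    rw [hones, Finset.card_filter]
    refine Finset.sum_congr rfl (fun s _ => ?_)
    rw [P313.ind_eq_ite]
  have hiff : ∀ s ∈ good, (G x ![B, s] = 1 ↔ x ∈ A) := by
    intro s hs
    obtain ⟨-, hs⟩ := Finset.mem_filter.1 hs
    rw [hval x ![B, s] hs.hw hs.htop hs.hq0 hs.hpad hs.hres]
    exact hs.hval
  have hgt : good.card ≤ t := by
    have := Finset.card_filter_le (range t) (fun s => GoodSeed p c e top q0 A x ![B, s])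
    rwa [Finset.card_range] at this
  have key : t < 2 * ones.card ↔ x ∈ A := by
    constructor
    · intro h5
      by_contra hx
      have h6 : good ⊆ (range t).filter (fun s => ¬ G x ![B, s] = 1) := by
        intro s hs
        refine Finset.mem_filter.2 ⟨(Finset.mem_filter.1 hs).1, fun h7 => hx ((hiff s hs).1 h7)⟩
      have h7 := Finset.card_le_card h6
      have h8 : ones.card + ((range t).filter (fun s => ¬ G x ![B, s] = 1)).card = t := by
        have h9 := Finset.card_filter_add_card_filter_not (s := range t)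
          (fun s => G x ![B, s] = 1)
        rw [Finset.card_range] at h9
        rw [← h9, hones]
        congr!
      omega
    · intro hx
      have h6 : good ⊆ ones := by
        intro s hs
        exact Finset.mem_filter.2 ⟨(Finset.mem_filter.1 hs).1, (hiff s hs).2 hx⟩
      have h7 := Finset.card_le_card h6
      omega
  show P313.ind (t < 2 * ∑ s ∈ range t, P313.ind (G x ![B, s] = 1)) ≠ 0 ↔ x ∈ A
  rw [hsumc, P313.ind_eq_ite]
  split_ifs with h5
  · exact ⟨fun _ => key.1 h5, fun _ => one_ne_zero⟩
  · exact ⟨fun h6 => absurd rfl h6, fun hx => absurd (key.2 hx) h5⟩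

end Vale.Agent.P313.CT
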